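import Mathlib

/-!
# P300, block D3: the lift `M : C(ℂ, Z)` of `z ↦ S.f (exp z)` from two node charts

`P s u` is the point with coordinate `u` (`u ∉ [1,∞)`) of the boundary curve in the chart of the bad
node with label `s`, `Q s ρ` the point with coordinate `ρ` (`ρ ^ m ∉ [1,∞)`) in the chart of the
section point.  The two charts are matched by principal logarithms.
-/

open Topology Filter Set Complex

namespace Vale.Agent.P300.H196

noncomputable section

/-- the plane without the half line `[1, ∞)` -/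
def Slit : Set ℂ := {u | ∀ t : ℝ, 1 ≤ t → u ≠ t}

theorem mem_Slit_iff {u : ℂ} : u ∈ Slit ↔ 1 - u ∈ slitPlane := by
  rw [mem_slitPlane_iff]
  constructor
  · intro h
    by_contra hc
    rw [not_or, not_lt, not_not] at hc
    refine h u.re ?_ ?_
    · have := hc.1; simp only [sub_re, one_re] at this; linarith
    · apply Complex.ext
      · simp
      · have := hc.2; simp only [sub_im, one_im] at this; simp only [ofReal_im]; linarith
  · rintro h t ht rfl
    rcases h with h | h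
    · simp only [sub_re, one_re, ofReal_re] at h; linarith
    · simp at h

theorem mem_Slit_of_im {u : ℂ} (h : u.im ≠ 0) : u ∈ Slit := by
  rintro t - rfl
  exact h (ofReal_im t)

theorem zero_mem_Slit : (0 : ℂ) ∈ Slit := by
  intro t ht h
  have : t = 0 := by exact_mod_cast h.symm
  linarith

theorem isOpen_Slit : IsOpen Slit := by
  have : Slit = (fun u : ℂ => 1 - u) ⁻¹' slitPlane := by ext u; exact mem_Slit_iff
  rw [this]
  exact isOpen_slitPlane.preimage (by fun_prop)

/-- the logarithm of `exp z` on the strip number `k` -/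
theorem log_exp_strip {z : ℂ} {k : ℤ} (h : |z.im - 2 * Real.pi * k| < Real.pi) :
    log (exp z) = z - 2 * Real.pi * I * k := by
  have h1 : exp z = exp (z - 2 * Real.pi * I * k) := by
    rw [exp_sub, show 2 * (Real.pi : ℂ) * I * k = k * (2 * Real.pi * I) by ring,
      exp_int_mul_two_pi_mul_I, div_one]
  have h2 : (z - 2 * Real.pi * I * k).im = z.im - 2 * Real.pi * k := by
    simp [sub_im, mul_im]
  rw [abs_lt] at h
  rw [h1, log_exp (by rw [h2]; linarith [h.1]) (by rw [h2]; linarith [h.2])]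

theorem exp_mem_slitPlane_strip {z : ℂ} {k : ℤ} (h : |z.im - 2 * Real.pi * k| < Real.pi) :
    exp z ∈ slitPlane := by
  rw [mem_slitPlane_iff_arg]
  refine ⟨?_, exp_ne_zero z⟩
  have h1 : (log (exp z)).im = z.im - 2 * Real.pi * k := by
    rw [log_exp_strip h]; simp [sub_im, mul_im]
  rw [log_im] at h1
  rw [h1]
  exact (abs_lt.1 h).2.ne

theorem exp_im_ne_zero {z : ℂ} {k : ℤ} (h1 : 2 * Real.pi * k < z.im)
    (h2 : z.im < 2 * Real.pi * k + Real.pi) : (exp z).im ≠ 0 := by
  rw [exp_im]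
  have : Real.sin z.im = Real.sin (z.im - k * (2 * Real.pi)) := by
    rw [Real.sin_sub_int_mul_two_pi]
  rw [this]
  have : 0 < Real.sin (z.im - k * (2 * Real.pi)) :=
    Real.sin_pos_of_pos_of_lt_pi (by linarith) (by linarith)
  positivity

theorem exp_im_ne_zero' {z : ℂ} {k : ℤ} (h1 : 2 * Real.pi * k + Real.pi < z.im)
    (h2 : z.im < 2 * Real.pi * (k + 1)) : (exp z).im ≠ 0 := by
  rw [exp_im]
  have : Real.sin z.im = Real.sin (z.im - (k + 1 : ℤ) * (2 * Real.pi)) := by
    rw [Real.sin_sub_int_mul_two_pi]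
  rw [this]
  have : Real.sin (z.im - (k + 1 : ℤ) * (2 * Real.pi)) < 0 :=
    Real.sin_neg_of_neg_of_neg_pi_lt (by push_cast; linarith) (by push_cast; linarith)
  exact mul_ne_zero (Real.exp_ne_zero _) this.ne

/-- off the real axis of the arguments, `exp z ∉ [1,∞)` -/
theorem exp_mem_Slit {z : ℂ} {k : ℤ} (h1 : 2 * Real.pi * k < z.im)
    (h2 : z.im < 2 * Real.pi * (k + 1)) : exp z ∈ Slit := by
  rintro t ht h
  have hpi := Real.pi_pos
  rcases lt_trichotomy z.im (2 * Real.pi * k + Real.pi) with h3 | h3 | h3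
  · exact exp_im_ne_zero h1 h3 (by rw [h, ofReal_im])
  · have h4 : (exp z).re = t := by rw [h, ofReal_re]
    rw [exp_re, h3] at h4
    have : Real.cos (2 * Real.pi * k + Real.pi) = -1 := by
      rw [show 2 * Real.pi * k + Real.pi = Real.pi + k * (2 * Real.pi) by ring,
        Real.cos_add_int_mul_two_pi, Real.cos_pi]
    rw [this] at h4
    have := Real.exp_pos z.re
    linarith
  · exact exp_im_ne_zero' h3 h2 (by rw [h, ofReal_im])

variable {Z : Type*} {S : Type*}

open Classical in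
/-- The lift. -/
def Mfun (m : ℕ) (P Q : S → ℂ → Z) (c : Equiv.Perm S) (s : S) (z : ℂ) : Z :=
  if h : ∃ k : ℤ, |z.im - 2 * Real.pi * k| < Real.pi then
    P ((c ^ h.choose) s) (1 - exp z)
  else Q ((c ^ ⌊z.im / (2 * Real.pi)⌋) s)
    (exp ((z - 2 * Real.pi * I * (⌊z.im / (2 * Real.pi)⌋ : ℤ)) / m))

theorem strip_unique {y : ℝ} {k l : ℤ} (hk : |y - 2 * Real.pi * k| < Real.pi)
    (hl : |y - 2 * Real.pi * l| < Real.pi) : k = l := by
  have hpi := Real.pi_pos
  rw [abs_lt] at hk hl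
  have h1 : (2 * Real.pi) * ((k : ℝ) - l) < (2 * Real.pi) * 1 := by linarith
  have h2 : (2 * Real.pi) * (-1) < (2 * Real.pi) * ((k : ℝ) - l) := by linarith
  have h3 : (k : ℝ) - l < 1 := lt_of_mul_lt_mul_left h1 (by positivity)
  have h4 : (-1 : ℝ) < (k : ℝ) - l := lt_of_mul_lt_mul_left h2 (by positivity)
  have h5 : k - l < 1 := by exact_mod_cast h3
  have h6 : -1 < k - l := by exact_mod_cast h4
  omega

theorem Mfun_P (m : ℕ) (P Q : S → ℂ → Z) (c : Equiv.Perm S) (s : S) {z : ℂ} {k : ℤ}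
    (h : |z.im - 2 * Real.pi * k| < Real.pi) :
    Mfun m P Q c s z = P ((c ^ k) s) (1 - exp z) := by
  have h1 : ∃ k : ℤ, |z.im - 2 * Real.pi * k| < Real.pi := ⟨k, h⟩
  rw [Mfun, dif_pos h1, strip_unique h1.choose_spec h]

theorem Mfun_Q {m : ℕ} (hm : 0 < m) {P Q : S → ℂ → Z} {c : Equiv.Perm S}
    (rot : ∀ s ρ, ρ ^ m ∈ Slit → Q s (exp (2 * Real.pi * I / m) * ρ) = Q (c s) ρ)
    (mat : ∀ s r, r.im ≠ 0 → P s (1 - r) = Q s (exp (log r / m)))
    (s : S) {z : ℂ} {k : ℤ} (h1 : 2 * Real.pi * k < z.im) (h2 : z.im < 2 * Real.pi * (k + 1)) :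
    Mfun m P Q c s z = Q ((c ^ k) s) (exp ((z - 2 * Real.pi * I * k) / m)) := by
  have hpi := Real.pi_pos
  have hm' : (m : ℂ) ≠ 0 := Nat.cast_ne_zero.2 hm.ne'
  rcases lt_trichotomy z.im (2 * Real.pi * k + Real.pi) with h3 | h3 | h3
  · have h4 : |z.im - 2 * Real.pi * k| < Real.pi := by rw [abs_lt]; constructor <;> linarith
    rw [Mfun_P m P Q c s h4, mat _ _ (exp_im_ne_zero h1 h3), log_exp_strip h4]
  · have h4 : ¬ ∃ l : ℤ, |z.im - 2 * Real.pi * l| < Real.pi := by
      rintro ⟨l, hl⟩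
      rw [abs_lt, h3] at hl
      have e1 : (2 * Real.pi) * ((k : ℝ) - l) < (2 * Real.pi) * 0 := by linarith
      have e2 : (2 * Real.pi) * (-1) < (2 * Real.pi) * ((k : ℝ) - l) := by linarith
      have e3 : (k : ℝ) - l < 0 := lt_of_mul_lt_mul_left e1 (by positivity)
      have e4 : (-1 : ℝ) < (k : ℝ) - l := lt_of_mul_lt_mul_left e2 (by positivity)
      have e5 : k - l < 0 := by exact_mod_cast e3
      have e6 : -1 < k - l := by exact_mod_cast e4
      omega
    have h5 : ⌊z.im / (2 * Real.pi)⌋ = k := by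
      rw [Int.floor_eq_iff]
      constructor
      · rw [le_div_iff₀ (by positivity)]; linarith
      · rw [div_lt_iff₀ (by positivity)]; linarith
    rw [Mfun, dif_neg h4, h5]
  · have h4 : |z.im - 2 * Real.pi * ((k + 1 : ℤ) : ℝ)| < Real.pi := by
      rw [abs_lt]; push_cast; constructor <;> linarith
    rw [Mfun_P m P Q c s h4, mat _ _ (exp_im_ne_zero' h3 h2), log_exp_strip h4]
    have h5 : (c ^ (k + 1)) s = c ((c ^ k) s) := by
      rw [add_comm, zpow_add, zpow_one]; rfl
    rw [h5, ← rot, ← exp_add]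
    · congr 2
      rw [← add_div]
      congr 1
      push_cast
      ring
    · rw [← exp_nat_mul, mul_div_cancel₀ _ hm', exp_sub,
        show 2 * (Real.pi : ℂ) * I * ((k + 1 : ℤ) : ℂ) = (k + 1 : ℤ) * (2 * Real.pi * I) by ring,
        exp_int_mul_two_pi_mul_I, div_one]
      exact exp_mem_Slit h1 h2

theorem continuous_Mfun [TopologicalSpace Z] {m : ℕ} (hm : 0 < m) {P Q : S → ℂ → Z}
    {c : Equiv.Perm S}
    (hP : ∀ s, ContinuousOn (P s) Slit)
    (hQ : ∀ s, ContinuousOn (Q s) {ρ | ρ ^ m ∈ Slit})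
    (rot : ∀ s ρ, ρ ^ m ∈ Slit → Q s (exp (2 * Real.pi * I / m) * ρ) = Q (c s) ρ)
    (mat : ∀ s r, r.im ≠ 0 → P s (1 - r) = Q s (exp (log r / m)))
    (s : S) : Continuous (Mfun m P Q c s) := by
  have hpi := Real.pi_pos
  have hm' : (m : ℂ) ≠ 0 := Nat.cast_ne_zero.2 hm.ne'
  rw [continuous_iff_continuousAt]
  intro z
  by_cases h : ∃ k : ℤ, |z.im - 2 * Real.pi * k| < Real.pi
  · obtain ⟨k, hk⟩ := h
    have ho : IsOpen {z : ℂ | |z.im - 2 * Real.pi * k| < Real.pi} :=
      isOpen_lt (by fun_prop) (by fun_prop)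
    have h1 : ContinuousOn (fun z => P ((c ^ k) s) (1 - exp z))
        {z : ℂ | |z.im - 2 * Real.pi * k| < Real.pi} := by
      refine (hP _).comp (by fun_prop) ?_
      intro w hw
      rw [mem_Slit_iff]
      have := exp_mem_slitPlane_strip hw
      simpa using this
    refine (h1.continuousAt (ho.mem_nhds hk)).congr ?_
    filter_upwards [ho.mem_nhds hk] with w hw
    exact (Mfun_P m P Q c s hw).symm
  · set k : ℤ := ⌊z.im / (2 * Real.pi)⌋ with hk
    have h1 : 2 * Real.pi * k ≤ z.im := by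
      have := Int.floor_le (z.im / (2 * Real.pi))
      rw [le_div_iff₀ (by positivity)] at this
      linarith
    have h2 : z.im < 2 * Real.pi * (k + 1) := by
      have := Int.lt_floor_add_one (z.im / (2 * Real.pi))
      rw [div_lt_iff₀ (by positivity)] at this
      linarith
    have h1' : 2 * Real.pi * k < z.im := by
      refine lt_of_le_of_ne h1 fun h3 => h ⟨k, ?_⟩
      rw [h3, sub_self, abs_zero]
      exact hpi
    have ho : IsOpen {z : ℂ | 2 * Real.pi * k < z.im ∧ z.im < 2 * Real.pi * (k + 1)} :=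
      (isOpen_lt continuous_const continuous_im).inter (isOpen_lt continuous_im continuous_const)
    have h3 : ContinuousOn (fun z => Q ((c ^ k) s) (exp ((z - 2 * Real.pi * I * k) / m)))
        {z : ℂ | 2 * Real.pi * k < z.im ∧ z.im < 2 * Real.pi * (k + 1)} := by
      refine (hQ _).comp (by fun_prop) ?_
      intro w hw
      rw [mem_ofPred_eq, ← exp_nat_mul, mul_div_cancel₀ _ hm', exp_sub,
        show 2 * (Real.pi : ℂ) * I * k = k * (2 * Real.pi * I) by ring,
        exp_int_mul_two_pi_mul_I, div_one]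
      exact exp_mem_Slit hw.1 hw.2
    refine (h3.continuousAt (ho.mem_nhds ⟨h1', h2⟩)).congr ?_
    filter_upwards [ho.mem_nhds ⟨h1', h2⟩] with w hw
    exact (Mfun_Q hm rot mat s hw.1 hw.2).symm

/-- **The lift from two charts.** -/
theorem exists_M [TopologicalSpace Z] {m : ℕ} (hm : 0 < m) {P Q : S → ℂ → Z}
    {c : Equiv.Perm S}
    (hP : ∀ s, ContinuousOn (P s) Slit)
    (hQ : ∀ s, ContinuousOn (Q s) {ρ | ρ ^ m ∈ Slit})
    (rot : ∀ s ρ, ρ ^ m ∈ Slit → Q s (exp (2 * Real.pi * I / m) * ρ) = Q (c s) ρ)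
    (mat : ∀ s r, r.im ≠ 0 → P s (1 - r) = Q s (exp (log r / m)))
    {Y : Type*} {p : Z → Y} {f : ℂ → Y}
    (pP : ∀ s w, w ∈ slitPlane → p (P s (1 - w)) = f w)
    (pQ : ∀ s ρ, ρ ^ m ∈ Slit → p (Q s ρ) = f (ρ ^ m))
    (s : S) :
    ∃ M : C(ℂ, Z), (∀ z, p (M z) = f (exp z)) ∧
      (∀ k : ℤ, M (k * (2 * Real.pi * I)) = P ((c ^ k) s) 0) ∧
      (∀ (k : ℤ) (z : ℂ), |z.im - 2 * Real.pi * k| < Real.pi →
        M z = P ((c ^ k) s) (1 - exp z)) ∧
      (∀ (k : ℤ) (z : ℂ), 2 * Real.pi * k < z.im → z.im < 2 * Real.pi * (k + 1) →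
        M z = Q ((c ^ k) s) (exp ((z - 2 * Real.pi * I * k) / m))) := by
  have hpi := Real.pi_pos
  have hm' : (m : ℂ) ≠ 0 := Nat.cast_ne_zero.2 hm.ne'
  have hA : ∀ (k : ℤ) (z : ℂ), |z.im - 2 * Real.pi * k| < Real.pi →
      Mfun m P Q c s z = P ((c ^ k) s) (1 - exp z) := fun k z h => Mfun_P m P Q c s h
  have hB : ∀ (k : ℤ) (z : ℂ), 2 * Real.pi * k < z.im → z.im < 2 * Real.pi * (k + 1) →
      Mfun m P Q c s z = Q ((c ^ k) s) (exp ((z - 2 * Real.pi * I * k) / m)) :=
    fun k z h1 h2 => Mfun_Q hm rot mat s h1 h2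
  refine ⟨⟨Mfun m P Q c s, continuous_Mfun hm hP hQ rot mat s⟩, ?_, ?_, hA, hB⟩
  · intro z
    simp only [ContinuousMap.coe_mk]
    by_cases h : ∃ k : ℤ, |z.im - 2 * Real.pi * k| < Real.pi
    · obtain ⟨k, hk⟩ := h
      rw [hA k z hk, pP _ _ (exp_mem_slitPlane_strip hk)]
    · set k : ℤ := ⌊z.im / (2 * Real.pi)⌋ with hk
      have h1 : 2 * Real.pi * k ≤ z.im := by
        have := Int.floor_le (z.im / (2 * Real.pi))
        rw [le_div_iff₀ (by positivity)] at this
        linarith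
      have h2 : z.im < 2 * Real.pi * (k + 1) := by
        have := Int.lt_floor_add_one (z.im / (2 * Real.pi))
        rw [div_lt_iff₀ (by positivity)] at this
        linarith
      have h1' : 2 * Real.pi * k < z.im := by
        refine lt_of_le_of_ne h1 fun h3 => h ⟨k, ?_⟩
        rw [h3, sub_self, abs_zero]
        exact hpi
      have h4 : exp ((z - 2 * Real.pi * I * k) / m) ^ m = exp z := by
        rw [← exp_nat_mul, mul_div_cancel₀ _ hm', exp_sub,
          show 2 * (Real.pi : ℂ) * I * k = k * (2 * Real.pi * I) by ring,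
          exp_int_mul_two_pi_mul_I, div_one]
      rw [hB k z h1' h2, pQ _ _ (by rw [h4]; exact exp_mem_Slit h1' h2), h4]
  · intro k
    have h1 : |((k : ℂ) * (2 * Real.pi * I)).im - 2 * Real.pi * k| < Real.pi := by
      have : ((k : ℂ) * (2 * Real.pi * I)).im = 2 * Real.pi * k := by
        simp [mul_im]; ring
      rw [this, sub_self, abs_zero]
      exact hpi
    rw [ContinuousMap.coe_mk, hA k _ h1, exp_int_mul_two_pi_mul_I, sub_self]

end

end Vale.Agent.P300.H196
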