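import Vale.Agent.P300.H142.Kap
import Vale.Agent.P300.H753.Fin
import Vale.Agent.P300.H196.TwoStrip

/-!
# P300, block D3: matching of the node charts along the bad curves

`L : ℂ × ℂ → Z` a lift over the logarithmic cover `Rt`, `h` its extension to the piece
`{(r, t) | (r ^ p, t ^ q) ∈ R}` including the axes (`Hat`).  The charts `5` and `6` (resp. `5` and
the extra chart) are related by `(u, v) ↦ ((1 - u) / (1 - u v), v)`
(resp. `(u, v) ↦ (u, (1 - v) / (1 - u v))`) and their lifts agree over the common real chamber.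
-/

open Topology Filter Set Complex

namespace Vale.Agent.P300.H196

noncomputable section

open H142 (R Rt)

theorem mem_R_iff {w : ℂ × ℂ} : w ∈ R ↔ w.1 ∈ Slit ∧ w.2 ∈ Slit ∧ w.1 * w.2 ∈ Slit := by
  constructor
  · intro h
    exact ⟨fun t ht => (h t ht).1, fun t ht => (h t ht).2.1, fun t ht => (h t ht).2.2⟩
  · rintro ⟨h1, h2, h3⟩ t ht
    exact ⟨h1 t ht, h2 t ht, h3 t ht⟩

theorem isOpen_R : IsOpen R := by
  have : R = {w : ℂ × ℂ | w.1 ∈ Slit} ∩ ({w | w.2 ∈ Slit} ∩ {w | w.1 * w.2 ∈ Slit}) := by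
    ext w; exact mem_R_iff
  rw [this]
  exact (isOpen_Slit.preimage continuous_fst).inter ((isOpen_Slit.preimage continuous_snd).inter
    (isOpen_Slit.preimage (continuous_fst.mul continuous_snd)))

theorem swap_mem_R {w : ℂ × ℂ} : w.swap ∈ R ↔ w ∈ R := by
  rw [mem_R_iff, mem_R_iff, Prod.fst_swap, Prod.snd_swap, mul_comm w.2]
  tauto

theorem swap_mem_Rt {z : ℂ × ℂ} : z.swap ∈ Rt ↔ z ∈ Rt := by
  show (exp z.2, exp z.1) ∈ R ↔ (exp z.1, exp z.2) ∈ R
  exact swap_mem_R (w := (exp z.1, exp z.2))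

theorem mk_zero_mem_R {u : ℂ} (hu : u ∈ Slit) : (u, (0 : ℂ)) ∈ R := by
  rw [mem_R_iff]
  exact ⟨hu, zero_mem_Slit, by simpa using zero_mem_Slit⟩

/-- domain of the piece with exponents `p`, `q` -/
def Om (p q : ℕ) : Set (ℂ × ℂ) := {w | (w.1 ^ p, w.2 ^ q) ∈ R}

theorem isOpen_Om (p q : ℕ) : IsOpen (Om p q) :=
  isOpen_R.preimage (by fun_prop)

theorem mk_zero_mem_Om {p q : ℕ} (hq : 0 < q) {r : ℂ} (hr : r ^ p ∈ Slit) :
    (r, (0 : ℂ)) ∈ Om p q := by
  show (r ^ p, (0 : ℂ) ^ q) ∈ R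
  rw [zero_pow hq.ne']
  exact mk_zero_mem_R hr

theorem exp_div_mem_Om {p q : ℕ} (hp : 0 < p) (hq : 0 < q) {z : ℂ × ℂ} (hz : z ∈ Rt) :
    (exp (z.1 / p), exp (z.2 / q)) ∈ Om p q := by
  have hp' : (p : ℂ) ≠ 0 := Nat.cast_ne_zero.2 hp.ne'
  have hq' : (q : ℂ) ≠ 0 := Nat.cast_ne_zero.2 hq.ne'
  show (exp (z.1 / p) ^ p, exp (z.2 / q) ^ q) ∈ R
  rw [← exp_nat_mul, ← exp_nat_mul, mul_div_cancel₀ _ hp', mul_div_cancel₀ _ hq']
  exact hz

/-- `h` is the extension to the piece with exponents `p`, `q` of the function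
`(r, t) ↦ l (p log r, q log t)` (principal logarithms) -/
structure PHat {Z : Type*} [TopologicalSpace Z] (l : ℂ × ℂ → Z) (p q : ℕ) (h : ℂ × ℂ → Z) :
    Prop where
  cont : ContinuousOn h (Om p q)
  eq : ∀ w ∈ Om p q, w.1 ≠ 0 → w.2 ≠ 0 → h w = l (p * log w.1, q * log w.2)

variable {Z : Type*} [TopologicalSpace Z]

theorem Om_swap {p q : ℕ} {w : ℂ × ℂ} : w.swap ∈ Om q p ↔ w ∈ Om p q := by
  show (w.2 ^ q, w.1 ^ p) ∈ R ↔ (w.1 ^ p, w.2 ^ q) ∈ R
  exact swap_mem_R (w := (w.1 ^ p, w.2 ^ q))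

theorem PHat.swap {l : ℂ × ℂ → Z} {p q : ℕ} {h : ℂ × ℂ → Z} (H : PHat l p q h) :
    PHat (fun z => l z.swap) q p (fun w => h w.swap) where
  cont := H.cont.comp continuous_swap.continuousOn fun w hw => Om_swap.1 (by simpa using hw)
  eq w hw h1 h2 := H.eq w.swap (Om_swap.2 hw) h2 h1

/-- The complement of the axes is dense in an open subset of the plane. -/
theorem eqOn_of_eqOn_offAxes [T2Space Z] {V : Set (ℂ × ℂ)} (hV : IsOpen V) {g g' : ℂ × ℂ → Z}
    (hg : ContinuousOn g V) (hg' : ContinuousOn g' V)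
    (h : ∀ w ∈ V, w.1 ≠ 0 → w.2 ≠ 0 → g w = g' w) : EqOn g g' V := by
  intro w hw
  have hd : Dense {x : ℂ × ℂ | x.1 ≠ 0 ∧ x.2 ≠ 0} := by
    have h1 : Dense ({0}ᶜ : Set ℂ) := dense_compl_singleton 0
    have h2 := h1.prod h1
    have h3 : {x : ℂ × ℂ | x.1 ≠ 0 ∧ x.2 ≠ 0} = ({0}ᶜ : Set ℂ) ×ˢ ({0}ᶜ : Set ℂ) := by
      ext x; rfl
    rw [h3]
    exact h2
  have h1 : w ∈ closure (V ∩ {x : ℂ × ℂ | x.1 ≠ 0 ∧ x.2 ≠ 0}) :=
    hV.inter_closure ⟨hw, hd w⟩
  have : (𝓝[V ∩ {x : ℂ × ℂ | x.1 ≠ 0 ∧ x.2 ≠ 0}] w).NeBot := mem_closure_iff_nhdsWithin_neBot.1 h1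
  have h2 : Tendsto g (𝓝[V ∩ {x : ℂ × ℂ | x.1 ≠ 0 ∧ x.2 ≠ 0}] w) (𝓝 (g w)) :=
    (hg w hw).mono_left (nhdsWithin_mono _ inter_subset_left)
  have h3 : Tendsto g' (𝓝[V ∩ {x : ℂ × ℂ | x.1 ≠ 0 ∧ x.2 ≠ 0}] w) (𝓝 (g' w)) :=
    (hg' w hw).mono_left (nhdsWithin_mono _ inter_subset_left)
  refine tendsto_nhds_unique h2 (h3.congr' ?_)
  filter_upwards [self_mem_nhdsWithin] with x hx
  exact (h x hx.1 hx.2.1 hx.2.2).symm

omit [TopologicalSpace Z] in
/-- integer powers of the deck rule -/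
theorem shift_zpow {S : Type*} {l : S → ℂ × ℂ → Z} {c : Equiv.Perm S}
    (hl : ∀ s, ∀ z ∈ Rt, l s (z.1 + 2 * Real.pi * I, z.2) = l (c s) z) (k : ℤ) :
    ∀ s, ∀ z ∈ Rt, l s (z.1 + k * (2 * Real.pi * I), z.2) = l ((c ^ k) s) z := by
  have hm : ∀ (k : ℤ) (z : ℂ × ℂ), z ∈ Rt → (z.1 + k * (2 * Real.pi * I), z.2) ∈ Rt := by
    intro k z hz
    show (exp (z.1 + k * (2 * Real.pi * I)), exp z.2) ∈ R
    rw [exp_add, exp_int_mul_two_pi_mul_I, mul_one]
    exact hz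
  induction k using Int.induction_on with
  | zero => intro s z hz; simp
  | succ k ih =>
    intro s z hz
    have h1 := hl s _ (hm k z hz)
    simp only at h1
    have e : z.1 + ((k : ℤ) + 1 : ℤ) * (2 * Real.pi * I) =
        z.1 + (k : ℤ) * (2 * Real.pi * I) + 2 * Real.pi * I := by push_cast; ring
    rw [e, h1, ih _ z hz, zpow_add_one]; rfl
  | pred k ih =>
    intro s z hz
    have h1 := hl (c⁻¹ s) _ (hm (-k - 1) z hz)
    simp only at h1
    have e : z.1 + ((-k - 1 : ℤ) : ℂ) * (2 * Real.pi * I) + 2 * Real.pi * I =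
        z.1 + ((-k : ℤ) : ℂ) * (2 * Real.pi * I) := by push_cast; ring
    have e2 : c (c⁻¹ s) = s := by simp
    rw [e, ih _ z hz, e2] at h1
    rw [← h1, zpow_sub_one]; rfl

/-- **deck rule in the first variable** -/
theorem PHat.rot [T2Space Z] {S : Type*} {l h : S → ℂ × ℂ → Z} {c : Equiv.Perm S} {p q : ℕ}
    (hp : 0 < p) (H : ∀ s, PHat (l s) p q (h s))
    (hl : ∀ s, ∀ z ∈ Rt, l s (z.1 + 2 * Real.pi * I, z.2) = l (c s) z) (hc : c ^ p = 1) (s : S) :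
    ∀ w ∈ Om p q, h s (exp (2 * Real.pi * I / p) * w.1, w.2) = h (c s) w := by
  have hp' : (p : ℂ) ≠ 0 := Nat.cast_ne_zero.2 hp.ne'
  have hz1 : exp (2 * Real.pi * I / p) ^ p = 1 := by
    rw [← exp_nat_mul, mul_div_cancel₀ _ hp', exp_two_pi_mul_I]
  have hmaps : ∀ w ∈ Om p q, (exp (2 * Real.pi * I / p) * w.1, w.2) ∈ Om p q := by
    intro w hw
    show ((exp (2 * Real.pi * I / p) * w.1) ^ p, w.2 ^ q) ∈ R
    rw [mul_pow, hz1, one_mul]
    exact hw
  refine eqOn_of_eqOn_offAxes (isOpen_Om p q) ((H s).cont.comp (by fun_prop) hmaps) (H (c s)).cont ?_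
  intro w hw h1 h2
  have hne : exp (2 * Real.pi * I / p) * w.1 ≠ 0 := mul_ne_zero (exp_ne_zero _) h1
  have hzR : (p * log w.1, q * log w.2) ∈ Rt := by
    show (exp (p * log w.1), exp (q * log w.2)) ∈ R
    rw [exp_nat_mul, exp_nat_mul, exp_log h1, exp_log h2]
    exact hw
  obtain ⟨n, hn⟩ := exp_eq_exp_iff_exists_int.1 (show
    exp (log (exp (2 * Real.pi * I / p) * w.1)) = exp (2 * Real.pi * I / p + log w.1) by
      rw [exp_log hne, exp_add, exp_log h1])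
  show h s (exp (2 * Real.pi * I / p) * w.1, w.2) = h (c s) w
  rw [(H s).eq _ (hmaps w hw) hne h2, (H (c s)).eq _ hw h1 h2]
  simp only
  rw [hn]
  have e1 : (p : ℂ) * (2 * Real.pi * I / p + log w.1 + n * (2 * Real.pi * I)) =
      p * log w.1 + ((1 + p * n : ℤ) : ℂ) * (2 * Real.pi * I) := by
    field_simp
    push_cast
    ring
  rw [e1]
  have h3 := shift_zpow hl (1 + p * n) s _ hzR
  simp only at h3
  rw [h3]
  have h4 : c ^ (1 + (p : ℤ) * n) = c := by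
    rw [zpow_add, zpow_one, zpow_mul, zpow_natCast, hc, one_zpow, mul_one]
  rw [h4]

/-- The common domain: off the real axis, or over the real chamber. -/
def Och : Set ℂ := {u | u.im ≠ 0 ∨ (0 < u.re ∧ u.re < 1)}

theorem Och_mem_Slit {u : ℂ} (hu : u ∈ Och) : u ∈ Slit := by
  rintro t ht rfl
  rcases hu with h | h
  · exact h (ofReal_im t)
  · rw [ofReal_re] at h; linarith [h.2]

theorem Och_mem_slitPlane {u : ℂ} (hu : u ∈ Och) : u ∈ slitPlane := by
  rw [mem_slitPlane_iff]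
  rcases hu with h | h
  · exact Or.inr h
  · exact Or.inl h.1

theorem Och_ne_zero {u : ℂ} (hu : u ∈ Och) : u ≠ 0 := slitPlane_ne_zero (Och_mem_slitPlane hu)

theorem isPreconnected_Och : IsPreconnected Och := by
  have hs : StarConvex ℝ ((1 / 2 : ℝ) : ℂ) Och := by
    intro u hu a b ha hb hab
    have h1 : (a • ((1 / 2 : ℝ) : ℂ) + b • u).im = b * u.im := by simp
    have h2 : (a • ((1 / 2 : ℝ) : ℂ) + b • u).re = a * (1 / 2) + b * u.re := by simp
    rcases eq_or_lt_of_le hb with hb0 | hb0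
    · right
      rw [h2, ← hb0]
      have : a = 1 := by linarith
      rw [this]
      constructor <;> norm_num
    · rcases hu with h | ⟨h3, h4⟩
      · left
        rw [h1]
        exact mul_ne_zero hb0.ne' h
      · right
        rw [h2]
        constructor
        · have := mul_pos hb0 h3
          linarith
        · have := mul_lt_mul_of_pos_left h4 hb0
          linarith
  have hne : ((1 / 2 : ℝ) : ℂ) ∈ Och := by
    refine Or.inr ⟨?_, ?_⟩ <;> rw [ofReal_re] <;> norm_num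
  exact (hs.isPathConnected hne).isConnected.isPreconnected

/-- the other coordinate `(1 - u) / (1 - u ε)` -/
def oth (ε : ℝ) (u : ℂ) : ℂ := (1 - u) / (1 - u * ε)

theorem one_sub_mul_ne {ε : ℝ} (h1 : ε < 1) {u : ℂ} (h0 : 0 ≤ ε) (hu : u ∈ Slit) :
    1 - u * ε ≠ 0 := by
  intro h
  have h2 : u * ε = 1 := (sub_eq_zero.1 h).symm
  have h3 : ε ≠ 0 := by rintro rfl; simp at h2
  have h4 : 0 < ε := lt_of_le_of_ne h0 h3.symm
  refine hu (1 / ε) ?_ ?_
  · rw [le_div_iff₀ h4]; linarith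
  · rw [ofReal_div, ofReal_one, eq_div_iff (by exact_mod_cast h3)]; exact h2

theorem oth_mem_Och {ε : ℝ} (h0 : 0 ≤ ε) (h1 : ε < 1) {u : ℂ} (hu : u ∈ Och) :
    oth ε u ∈ Och := by
  have hne := one_sub_mul_ne h1 h0 (Och_mem_Slit hu)
  have hns : 0 < normSq (1 - u * ε) := normSq_pos.2 hne
  have e1 : (oth ε u).im = -(1 - ε) * u.im / normSq (1 - u * ε) := by
    rw [oth, div_im]
    simp only [sub_re, sub_im, one_re, one_im, mul_re, mul_im, ofReal_re, ofReal_im]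
    rw [← sub_div]
    congr 1
    ring
  rcases hu with h | ⟨h2, h3⟩
  · left
    rw [e1]
    have : -(1 - ε) * u.im ≠ 0 := mul_ne_zero (by linarith) h
    exact div_ne_zero this hns.ne'
  · by_cases h : u.im = 0
    · right
      have hu' : u = (u.re : ℂ) := by
        apply Complex.ext <;> simp [h]
      have e2 : oth ε u = (((1 - u.re) / (1 - u.re * ε) : ℝ) : ℂ) := by
        rw [oth, hu']; push_cast; simp
      rw [e2, ofReal_re]
      have h5 : u.re * ε < 1 := by nlinarith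
      constructor
      · exact div_pos (by linarith) (by linarith)
      · rw [div_lt_one (by linarith)]
        by_cases hε : ε = 0
        · subst hε; linarith
        · have : 0 < ε := lt_of_le_of_ne h0 (Ne.symm hε)
          nlinarith
    · left
      rw [e1]
      exact div_ne_zero (mul_ne_zero (by linarith) h) hns.ne'

theorem mem_R_of_Och {ε : ℝ} (h0 : 0 ≤ ε) (h1 : ε < 1) {u : ℂ} (hu : u ∈ Slit) :
    (u, (ε : ℂ)) ∈ R := by
  rw [mem_R_iff]
  refine ⟨hu, ?_, ?_⟩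
  · intro t ht h
    simp only at h
    have : ε = t := by exact_mod_cast h
    linarith
  · intro t ht h
    simp only at h
    have h3 : ε ≠ 0 := by
      rintro rfl
      simp only [ofReal_zero, mul_zero] at h
      have : (0 : ℝ) = t := by exact_mod_cast h
      linarith
    have h4 : 0 < ε := lt_of_le_of_ne h0 h3.symm
    refine hu (t / ε) ?_ ?_
    · rw [le_div_iff₀ h4]; linarith
    · rw [ofReal_div, eq_div_iff (by exact_mod_cast h3)]; exact h

theorem log_exp_div {m : ℕ} (hm : 0 < m) (w : ℂ) :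
    (m : ℂ) * log (exp (log w / m)) = log w := by
  have hm' : (m : ℂ) ≠ 0 := Nat.cast_ne_zero.2 hm.ne'
  have hm1 : (1 : ℝ) ≤ m := by exact_mod_cast hm
  have him : (log w / m).im = (log w).im / m := by
    rw [show (m : ℂ) = ((m : ℝ) : ℂ) by simp, div_ofReal_im]
  have hpi := Real.pi_pos
  have h1 : -Real.pi < (log w / m).im := by
    rw [him, lt_div_iff₀ (by positivity)]
    have := neg_pi_lt_log_im w
    nlinarith
  have h2 : (log w / m).im ≤ Real.pi := by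
    rw [him, div_le_iff₀ (by positivity)]
    have := log_im_le_pi w
    nlinarith
  rw [log_exp h1 h2, mul_div_cancel₀ _ hm']

/-- **Matching of the extensions along the curve**: the limit `ε → 0`. -/
theorem PHat.mat [T2Space Z] {l0 l1 : ℂ × ℂ → Z} {m : ℕ} (hm : 0 < m)
    {h0 h1 : ℂ × ℂ → Z} (H0 : PHat l0 1 1 h0) (H1 : PHat l1 m 1 h1)
    (hbase : ∀ ε : ℝ, 0 < ε → ε < 1 → ∀ u ∈ Och,
      l0 (log u, log ε) = l1 (log (oth ε u), log ε)) {u : ℂ} (hu : u ∈ Och) :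
    h0 (u, 0) = h1 (exp (log (1 - u) / m), 0) := by
  have hm' : (m : ℂ) ≠ 0 := Nat.cast_ne_zero.2 hm.ne'
  have hu1 : (1 - u) ∈ Och := by
    rcases hu with h | ⟨h, h'⟩
    · exact Or.inl (by simpa using h)
    · exact Or.inr (by simp only [sub_re, one_re]; constructor <;> linarith)
  have hr0 : (1 - u) ∈ slitPlane := Och_mem_slitPlane hu1
  -- the two limits
  have hε : Tendsto (fun ε : ℝ => (ε : ℂ)) (𝓝[>] 0) (𝓝 0) := by
    have : Continuous fun ε : ℝ => (ε : ℂ) := continuous_ofReal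
    have h := (this.tendsto 0).mono_left (nhdsWithin_le_nhds (s := Ioi (0 : ℝ)))
    simpa using h
  have hlim5 : Tendsto (fun ε : ℝ => h0 (u, (ε : ℂ))) (𝓝[>] 0) (𝓝 (h0 (u, 0))) := by
    have h1 : ContinuousAt h0 (u, 0) :=
      H0.cont.continuousAt ((isOpen_Om 1 1).mem_nhds (mk_zero_mem_Om one_pos
        (by rw [pow_one]; exact Och_mem_Slit hu)))
    exact h1.tendsto.comp (tendsto_const_nhds.prodMk_nhds hε)
  have hoth : Tendsto (fun ε : ℝ => oth ε u) (𝓝[>] 0) (𝓝 (1 - u)) := by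
    have h1 : Tendsto (fun ε : ℝ => (1 - u) / (1 - u * (ε : ℂ))) (𝓝[>] 0)
        (𝓝 ((1 - u) / (1 - u * 0))) :=
      tendsto_const_nhds.div (tendsto_const_nhds.sub (tendsto_const_nhds.mul hε)) (by simp)
    simpa [oth] using h1
  have hlim6 : Tendsto (fun ε : ℝ => h1 (exp (log (oth ε u) / m), (ε : ℂ)))
      (𝓝[>] 0) (𝓝 (h1 (exp (log (1 - u) / m), 0))) := by
    have h2 : ContinuousAt h1 (exp (log (1 - u) / m), 0) := by
      refine H1.cont.continuousAt ((isOpen_Om m 1).mem_nhds (mk_zero_mem_Om one_pos ?_))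
      rw [← exp_nat_mul, mul_div_cancel₀ _ hm', exp_log (slitPlane_ne_zero hr0)]
      exact Och_mem_Slit hu1
    have h3 : Tendsto (fun ε : ℝ => exp (log (oth ε u) / m)) (𝓝[>] 0)
        (𝓝 (exp (log (1 - u) / m))) :=
      (continuous_exp.tendsto _).comp (((continuousAt_clog hr0).tendsto.comp hoth).div_const _)
    exact h2.tendsto.comp (h3.prodMk_nhds hε)
  refine tendsto_nhds_unique hlim5 (hlim6.congr' ?_)
  have h2 : ∀ᶠ ε : ℝ in 𝓝[>] 0, 0 < ε ∧ ε < 1 := by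
    filter_upwards [Ioo_mem_nhdsGT (zero_lt_one' ℝ)] with ε hε using hε
  filter_upwards [h2] with ε hε
  have hε0 : (ε : ℂ) ≠ 0 := by exact_mod_cast hε.1.ne'
  have ho := oth_mem_Och hε.1.le hε.2 hu
  have hR : (u, (ε : ℂ)) ∈ Om 1 1 := by
    show (u ^ 1, (ε : ℂ) ^ 1) ∈ R
    rw [pow_one, pow_one]
    exact mem_R_of_Och hε.1.le hε.2 (Och_mem_Slit hu)
  have hR' : (exp (log (oth ε u) / m), (ε : ℂ)) ∈ Om m 1 := by
    show (exp (log (oth ε u) / m) ^ m, (ε : ℂ) ^ 1) ∈ R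
    rw [pow_one, ← exp_nat_mul, mul_div_cancel₀ _ hm', exp_log (Och_ne_zero ho)]
    exact mem_R_of_Och hε.1.le hε.2 (Och_mem_Slit ho)
  rw [H0.eq _ hR (Och_ne_zero hu) hε0, H1.eq _ hR' (exp_ne_zero _) hε0]
  simp only
  rw [log_exp_div hm, Nat.cast_one, one_mul, one_mul,
    hbase ε hε.1 hε.2 _ hu]

/-- the form with the coordinate `r` of the other chart -/
theorem PHat.mat' [T2Space Z] {l0 l1 : ℂ × ℂ → Z} {m : ℕ} (hm : 0 < m)
    {h0 h1 : ℂ × ℂ → Z} (H0 : PHat l0 1 1 h0) (H1 : PHat l1 m 1 h1)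
    (hbase : ∀ ε : ℝ, 0 < ε → ε < 1 → ∀ u ∈ Och,
      l0 (log u, log ε) = l1 (log (oth ε u), log ε)) {r : ℂ} (hr0 : r ≠ 0) (hr : r ^ m ∈ Slit)
    (harg : |arg r| < Real.pi / m) :
    h1 (r, 0) = h0 (1 - r ^ m, 0) := by
  have hm' : (m : ℂ) ≠ 0 := Nat.cast_ne_zero.2 hm.ne'
  have hmR : (0 : ℝ) < m := by exact_mod_cast hm
  rw [abs_lt, lt_div_iff₀ hmR, ← neg_div, div_lt_iff₀ hmR] at harg
  have him : ((m : ℂ) * log r).im = m * arg r := by
    rw [show (m : ℂ) = ((m : ℝ) : ℂ) by simp, im_ofReal_mul, log_im]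
  have hlog : log (r ^ m) = m * log r := by
    have h1 : r ^ m = exp (m * log r) := by rw [exp_nat_mul, exp_log hr0]
    rw [h1, log_exp (by rw [him]; linarith [harg.1]) (by rw [him]; linarith [harg.2])]
  have hsl : r ^ m ∈ slitPlane := by
    rw [mem_slitPlane_iff_arg]
    refine ⟨?_, pow_ne_zero _ hr0⟩
    rw [← log_im, hlog, him]
    linarith [harg.2]
  have hu : (1 - r ^ m) ∈ Och := by
    by_cases h : (r ^ m).im = 0
    · right
      rw [mem_slitPlane_iff] at hsl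
      have h1 : 0 < (r ^ m).re := by
        rcases hsl with h2 | h2
        · exact h2
        · exact absurd h h2
      have h2 : (r ^ m).re < 1 := by
        by_contra h3
        exact hr (r ^ m).re (not_lt.1 h3) (by apply Complex.ext <;> simp [h])
      simp only [sub_re, one_re]
      constructor <;> linarith
    · left
      simpa using h
  have h2 := H0.mat hm H1 hbase hu
  rw [sub_sub_cancel, hlog, mul_div_cancel_left₀ _ hm', exp_log hr0] at h2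
  exact h2.symm

/-! ### the two lifts agree over the common domain -/

section Base

variable {US B : Type*} [TopologicalSpace US] [TopologicalSpace B] {π : US → B}

/-- Two lifts which agree over the real chamber agree with principal logarithms on both half
planes. -/
theorem base_ext (hπ : IsCoveringMap π) {val : B → ℂ × ℂ} (hval : Function.Injective val)
    {l0 l1 : ℂ × ℂ → US} (c0 : ContinuousOn l0 Rt) (c1 : ContinuousOn l1 Rt)
    {k0 k1 : ℂ × ℂ → ℂ × ℂ}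
    (p0 : ∀ z ∈ Rt, val (π (l0 z)) = k0 (exp z.1, exp z.2))
    (p1 : ∀ z ∈ Rt, val (π (l1 z)) = k1 (exp z.1, exp z.2))
    {ε : ℝ} (h0 : 0 < ε) (h1 : ε < 1)
    (hk : ∀ u ∈ Och, k0 (u, ε) = k1 (oth ε u, ε))
    (hb : l0 (log ((1 / 2 : ℝ) : ℂ), log ε) = l1 (log (oth ε ((1 / 2 : ℝ) : ℂ)), log ε)) :
    ∀ u ∈ Och, l0 (log u, log ε) = l1 (log (oth ε u), log ε) := by
  have hε0 : (ε : ℂ) ≠ 0 := by exact_mod_cast h0.ne'
  have hm0 : ∀ u ∈ Och, (log u, log (ε : ℂ)) ∈ Rt := by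
    intro u hu
    show (exp (log u), exp (log (ε : ℂ))) ∈ R
    rw [exp_log (Och_ne_zero hu), exp_log hε0]
    exact mem_R_of_Och h0.le h1 (Och_mem_Slit hu)
  have hm1 : ∀ u ∈ Och, (log (oth ε u), log (ε : ℂ)) ∈ Rt := fun u hu =>
    hm0 _ (oth_mem_Och h0.le h1 hu)
  have hc0 : ContinuousOn (fun u : ℂ => l0 (log u, log ε)) Och := by
    refine c0.comp (ContinuousOn.prodMk ?_ continuousOn_const) hm0
    exact fun u hu => (continuousAt_clog (Och_mem_slitPlane hu)).continuousWithinAt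
  have hoth : ContinuousOn (oth ε) Och := by
    refine ContinuousOn.div (by fun_prop) (by fun_prop) fun u hu => ?_
    exact one_sub_mul_ne h1 h0.le (Och_mem_Slit hu)
  have hc1 : ContinuousOn (fun u : ℂ => l1 (log (oth ε u), log ε)) Och := by
    refine c1.comp (ContinuousOn.prodMk ?_ continuousOn_const) hm1
    exact hoth.clog fun u hu => Och_mem_slitPlane (oth_mem_Och h0.le h1 hu)
  refine hπ.eqOn_of_comp_eqOn isPreconnected_Och hc0 hc1 ?_ (a := ((1 / 2 : ℝ) : ℂ)) ?_ hb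
  · intro u hu
    apply hval
    simp only [Function.comp_apply]
    rw [p0 _ (hm0 u hu), p1 _ (hm1 u hu)]
    simp only
    rw [exp_log (Och_ne_zero hu), exp_log hε0, exp_log (Och_ne_zero (oth_mem_Och h0.le h1 hu)),
      hk u hu]
  · refine Or.inr ⟨?_, ?_⟩ <;> rw [ofReal_re] <;> norm_num

theorem oth_ofReal (ε u : ℝ) : oth ε (u : ℂ) = (((1 - u) / (1 - u * ε) : ℝ) : ℂ) := by
  rw [oth]; push_cast; rfl

theorem oth_real_mem {ε u : ℝ} (h0 : 0 < ε) (h1 : ε < 1) (hu0 : 0 < u) (hu1 : u < 1) :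
    0 < (1 - u) / (1 - u * ε) ∧ (1 - u) / (1 - u * ε) < 1 := by
  have h5 : u * ε < 1 := by nlinarith
  constructor
  · exact div_pos (by linarith) (by linarith)
  · rw [div_lt_one (by linarith)]; nlinarith

/-- the chart `5` in terms of the chart `6` -/
theorem kap56 {ε : ℝ} (h1 : ε < 1) {u : ℂ} (hne : 1 - u * ε ≠ 0) :
    H142.kap 5 (u, (ε : ℂ)) = H142.kap 6 (oth ε u, (ε : ℂ)) := by
  have hε : (1 - (ε : ℂ)) ≠ 0 := by
    rw [sub_ne_zero]; intro h
    have : (1 : ℝ) = ε := by exact_mod_cast h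
    linarith
  have e1 : 1 - oth ε u * ε = (1 - ε) / (1 - u * ε) := by
    rw [oth]; field_simp; ring
  have e2 : 1 - oth ε u = u * (1 - ε) / (1 - u * ε) := by
    rw [oth]; field_simp; ring
  show ((ε : ℂ), u * ε) = ((ε : ℂ), ε * (1 - oth ε u) / (1 - oth ε u * ε))
  rw [e1, e2]
  congr 1
  field_simp

/-- the chart `5` in terms of the extra chart -/
theorem kap5X {ε : ℝ} (h1 : ε < 1) {u : ℂ} (hne : 1 - u * ε ≠ 0) :
    H142.kap 5 ((ε : ℂ), u) = H142.kapX ((ε : ℂ), oth ε u) := by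
  have hε : (1 - (ε : ℂ)) ≠ 0 := by
    rw [sub_ne_zero]; intro h
    have : (1 : ℝ) = ε := by exact_mod_cast h
    linarith
  have e1 : 1 - ε * oth ε u = (1 - ε) / (1 - u * ε) := by
    rw [oth, eq_div_iff hne, sub_mul, mul_assoc, div_mul_cancel₀ _ hne]; ring
  have e2 : 1 - oth ε u = u * (1 - ε) / (1 - u * ε) := by
    rw [oth]; field_simp; ring
  show (u, (ε : ℂ) * u) = ((1 - oth ε u) / (1 - ε * oth ε u),
    ε * (1 - oth ε u) / (1 - ε * oth ε u))
  rw [e1, e2]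
  have hne' : (1 - ε * u : ℂ) ≠ 0 := by rwa [mul_comm] at hne
  congr 1 <;> field_simp

/-- **Block [LIM] of D3.** -/
theorem lim [T2Space Z] {S : Type*} (hπ : IsCoveringMap π) {val : B → ℂ × ℂ}
    (hval : Function.Injective val) {L0 L1 L2 : ℂ × ℂ → S → US}
    (cont0 : ∀ s, ContinuousOn (fun z => L0 z s) Rt)
    (cont1 : ∀ s, ContinuousOn (fun z => L1 z s) Rt)
    (cont2 : ∀ s, ContinuousOn (fun z => L2 z s) Rt)
    (pr0 : ∀ z ∈ Rt, ∀ s, val (π (L0 z s)) = H142.kap 5 (exp z.1, exp z.2))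
    (pr1 : ∀ z ∈ Rt, ∀ s, val (π (L1 z s)) = H142.kap 6 (exp z.1, exp z.2))
    (pr2 : ∀ z ∈ Rt, ∀ s, val (π (L2 z s)) = H142.kapX (exp z.1, exp z.2))
    (base1 : ∀ (s : S) (u v u' v' : ℝ), 0 < u → u < 1 → 0 < v → v < 1 → 0 < u' → u' < 1 →
      0 < v' → v' < 1 → H142.kap 5 (u, v) = H142.kap 6 (u', v') →
      L0 (Real.log u, Real.log v) s = L1 (Real.log u', Real.log v') s)
    (base2 : ∀ (s : S) (u v u' v' : ℝ), 0 < u → u < 1 → 0 < v → v < 1 → 0 < u' → u' < 1 →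
      0 < v' → v' < 1 → H142.kap 5 (u, v) = H142.kapX (u', v') →
      L0 (Real.log u, Real.log v) s = L2 (Real.log u', Real.log v') s)
    {ι : US → Z} {m : ℕ} (hm : 0 < m) {H0 H1 H2 : S → ℂ × ℂ → Z}
    (cH0 : ∀ s, ContinuousOn (H0 s) (H753.Om R 1 1))
    (cH1 : ∀ s, ContinuousOn (H1 s) (H753.Om R m 1))
    (cH2 : ∀ s, ContinuousOn (H2 s) (H753.Om R 1 m))
    (eH0 : ∀ s, ∀ x ∈ H753.Omp R 1 1, H0 s x = ι (L0 (log x.1, log x.2) s))
    (eH1 : ∀ s, ∀ x ∈ H753.Omp R m 1, H1 s x = ι (L1 (m * log x.1, log x.2) s))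
    (eH2 : ∀ s, ∀ x ∈ H753.Omp R 1 m, H2 s x = ι (L2 (log x.1, m * log x.2) s))
    {c c' : Equiv.Perm S}
    (r1 : ∀ z ∈ Rt, ∀ s, L1 (z.1 + 2 * Real.pi * I, z.2) s = L1 z (c s)) (hc : c ^ m = 1)
    (r2 : ∀ z ∈ Rt, ∀ s, L2 (z.1, z.2 + 2 * Real.pi * I) s = L2 z (c' s)) (hc' : c' ^ m = 1) :
    (∀ s r, r ≠ 0 → r ^ m ∈ Slit → |arg r| < Real.pi / m → H1 s (r, 0) = H0 s (1 - r ^ m, 0)) ∧
    (∀ s r, r ^ m ∈ Slit → H1 s (exp (2 * Real.pi * I / m) * r, 0) = H1 (c s) (r, 0)) ∧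
    (∀ s r, r ≠ 0 → r ^ m ∈ Slit → |arg r| < Real.pi / m → H2 s (0, r) = H0 s (0, 1 - r ^ m)) ∧
    (∀ s r, r ^ m ∈ Slit → H2 s (0, exp (2 * Real.pi * I / m) * r) = H2 (c' s) (0, r)) := by
  have P0 : ∀ s, PHat (fun z => ι (L0 z s)) 1 1 (H0 s) := fun s =>
    ⟨cH0 s, fun w hw h1 h2 => by
      rw [eH0 s w ⟨hw, h1, h2⟩, Nat.cast_one, one_mul, one_mul]⟩
  have P1 : ∀ s, PHat (fun z => ι (L1 z s)) m 1 (H1 s) := fun s =>
    ⟨cH1 s, fun w hw h1 h2 => by
      rw [eH1 s w ⟨hw, h1, h2⟩, Nat.cast_one, one_mul]⟩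
  have P2 : ∀ s, PHat (fun z => ι (L2 z s)) 1 m (H2 s) := fun s =>
    ⟨cH2 s, fun w hw h1 h2 => by
      rw [eH2 s w ⟨hw, h1, h2⟩, Nat.cast_one, one_mul]⟩
  have B1 : ∀ s, ∀ ε : ℝ, 0 < ε → ε < 1 → ∀ u ∈ Och,
      ι (L0 (log u, log ε) s) = ι (L1 (log (oth ε u), log ε) s) := by
    intro s ε h0 h1 u hu
    have hr := oth_real_mem (u := 1 / 2) h0 h1 (by norm_num) (by norm_num)
    have hhalf : (1 : ℂ) - ((1 / 2 : ℝ) : ℂ) * ε ≠ 0 := by
      refine one_sub_mul_ne h1 h0.le (Och_mem_Slit (Or.inr ⟨?_, ?_⟩)) <;> rw [ofReal_re] <;>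
        norm_num
    have hb := base1 s (1 / 2) ε _ ε (by norm_num) (by norm_num) h0 h1 hr.1 hr.2 h0 h1 (by
      rw [kap56 h1 hhalf, oth_ofReal])
    rw [ofReal_log (show (0 : ℝ) ≤ 1 / 2 by norm_num), ofReal_log h0.le, ofReal_log hr.1.le,
      ← oth_ofReal] at hb
    exact congrArg ι (base_ext hπ hval (cont0 s) (cont1 s) (fun z hz => pr0 z hz s)
      (fun z hz => pr1 z hz s) h0 h1
      (fun u hu => kap56 h1 (one_sub_mul_ne h1 h0.le (Och_mem_Slit hu))) hb u hu)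
  have B2 : ∀ s, ∀ ε : ℝ, 0 < ε → ε < 1 → ∀ u ∈ Och,
      ι (L0 (log ε, log u) s) = ι (L2 (log ε, log (oth ε u)) s) := by
    intro s ε h0 h1 u hu
    have hr := oth_real_mem (u := 1 / 2) h0 h1 (by norm_num) (by norm_num)
    have hhalf : (1 : ℂ) - ((1 / 2 : ℝ) : ℂ) * ε ≠ 0 := by
      refine one_sub_mul_ne h1 h0.le (Och_mem_Slit (Or.inr ⟨?_, ?_⟩)) <;> rw [ofReal_re] <;>
        norm_num
    have hb := base2 s ε (1 / 2) ε _ h0 h1 (by norm_num) (by norm_num) h0 h1 hr.1 hr.2 (by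
      rw [kap5X h1 hhalf, oth_ofReal])
    rw [ofReal_log (show (0 : ℝ) ≤ 1 / 2 by norm_num), ofReal_log h0.le, ofReal_log hr.1.le,
      ← oth_ofReal] at hb
    have c0' : ContinuousOn (fun z : ℂ × ℂ => L0 z.swap s) Rt :=
      (cont0 s).comp continuous_swap.continuousOn fun z hz => swap_mem_Rt.2 hz
    have c2' : ContinuousOn (fun z : ℂ × ℂ => L2 z.swap s) Rt :=
      (cont2 s).comp continuous_swap.continuousOn fun z hz => swap_mem_Rt.2 hz
    exact congrArg ι (base_ext (l0 := fun z => L0 z.swap s) (l1 := fun z => L2 z.swap s)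
      (k0 := fun w => H142.kap 5 w.swap) (k1 := fun w => H142.kapX w.swap) hπ hval c0' c2'
      (fun z hz => pr0 z.swap (swap_mem_Rt.2 hz) s)
      (fun z hz => pr2 z.swap (swap_mem_Rt.2 hz) s) h0 h1
      (fun u hu => kap5X h1 (one_sub_mul_ne h1 h0.le (Och_mem_Slit hu))) hb u hu)
  refine ⟨fun s r h1 h2 h3 => (P0 s).mat' hm (P1 s) (B1 s) h1 h2 h3, fun s r h1 => ?_,
    fun s r h1 h2 h3 => ?_, fun s r h1 => ?_⟩
  · exact PHat.rot hm P1 (fun s z hz => by rw [r1 z hz s]) hc s (r, 0)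
      (mk_zero_mem_Om one_pos h1)
  · exact (P0 s).swap.mat' hm (P2 s).swap (B2 s) h1 h2 h3
  · exact PHat.rot (l := fun s z => ι (L2 z.swap s)) hm (fun s => (P2 s).swap)
      (fun s z hz => congrArg ι (r2 z.swap (swap_mem_Rt.2 hz) s)) hc' s (r, 0)
      (mk_zero_mem_Om one_pos h1)

end Base

end

end Vale.Agent.P300.H196
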