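import Mathlib

/-!
# Extension of a covering over a thin boundary

`X` a topological space, `S ⊆ X` open and dense, `q₀ : Z₀ → X` a separated local homeomorphism
with image in `S` (for instance a covering of `S`).  Suppose that every point of `X` has arbitrarily
small open neighbourhoods `B` with `B ∩ S` preconnected, and a neighbourhood `B` such that through
every point of `Z₀` over `B` there is a continuous section of `q₀` over `B ∩ S`.  Then `q₀` extends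
to a covering `q : Ext S q₀ → X`, `Z₀` being the open set over `S`.

The space `Ext S q₀` is the space of germs (along `S`) of sections of `q₀` at the points of `X`;
nothing is chosen.
-/

open Topology Filter Set

namespace Vale.Agent.P300.H196

universe u v w

section Defs

variable {X : Type u} [TopologicalSpace X] {Z₀ : Type v} [TopologicalSpace Z₀]

/-- `s` is a continuous section of `q₀` over `B ∩ S`. -/
def IsSec (S : Set X) (q₀ : Z₀ → X) (B : Set X) (s : X → Z₀) : Prop :=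
  ContinuousOn s (B ∩ S) ∧ ∀ y ∈ B ∩ S, q₀ (s y) = y

theorem IsSec.mono {S : Set X} {q₀ : Z₀ → X} {B B' : Set X} {s : X → Z₀}
    (h : IsSec S q₀ B s) (hB : B' ⊆ B) : IsSec S q₀ B' s :=
  ⟨h.1.mono (inter_subset_inter_left _ hB), fun y hy => h.2 y ⟨hB hy.1, hy.2⟩⟩

/-- The hypotheses under which a separated local homeomorphism over `S` extends to a covering
of `X`. -/
structure ExtData (S : Set X) (q₀ : Z₀ → X) : Prop where
  isOpen : IsOpen S
  dense : Dense S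
  mem : ∀ z, q₀ z ∈ S
  lh : IsLocalHomeomorph q₀
  sep : IsSeparatedMap q₀
  conn : ∀ x, ∀ U ∈ 𝓝 x, ∃ B, IsOpen B ∧ x ∈ B ∧ B ⊆ U ∧ IsPreconnected (B ∩ S)
  sec : ∀ x, ∃ B, IsOpen B ∧ x ∈ B ∧ ∀ z, q₀ z ∈ B → ∃ s, IsSec S q₀ B s ∧ s (q₀ z) = z

/-- A point of the extension: a germ along `S` of a section of `q₀` at a point of `X`. -/
structure Ext (S : Set X) (q₀ : Z₀ → X) : Type (max u v) where
  pt : X
  germ : Germ (𝓝[S] pt) Z₀
  isSec : ∃ (B : Set X) (s : X → Z₀), IsOpen B ∧ pt ∈ B ∧ IsSec S q₀ B s ∧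
    germ = (s : Germ (𝓝[S] pt) Z₀)

variable {S : Set X} {q₀ : Z₀ → X}

/-- The germ at `y` of the section `s`. -/
def Ext.mkSec {B : Set X} {s : X → Z₀} (hB : IsOpen B) (hs : IsSec S q₀ B s) {y : X}
    (hy : y ∈ B) : Ext S q₀ :=
  ⟨y, (s : Germ (𝓝[S] y) Z₀), B, s, hB, hy, hs, rfl⟩

/-- The basic open set of the germs of the section `s`. -/
def Ext.nb (S : Set X) (q₀ : Z₀ → X) (B : Set X) (s : X → Z₀) : Set (Ext S q₀) :=
  {p | p.pt ∈ B ∧ p.germ = (s : Germ (𝓝[S] p.pt) Z₀)}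

instance : TopologicalSpace (Ext S q₀) :=
  TopologicalSpace.generateFrom
    {N | ∃ (B : Set X) (s : X → Z₀), IsOpen B ∧ IsSec S q₀ B s ∧ N = Ext.nb S q₀ B s}

/-- The projection. -/
abbrev Ext.proj (p : Ext S q₀) : X := p.pt

end Defs

section Basic

variable {X : Type u} [TopologicalSpace X] {Z₀ : Type v} [TopologicalSpace Z₀]
variable {S : Set X} {q₀ : Z₀ → X}

theorem Ext.eq_of_germ {p p' : Ext S q₀} (s : X → Z₀) (h : p.pt = p'.pt)
    (h1 : p.germ = (s : Germ (𝓝[S] p.pt) Z₀)) (h2 : p'.germ = (s : Germ (𝓝[S] p'.pt) Z₀)) :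
    p = p' := by
  obtain ⟨x, g, hg⟩ := p
  obtain ⟨x', g', hg'⟩ := p'
  simp only at h h1 h2
  subst h
  subst h1
  subst h2
  rfl

@[simp] theorem Ext.mkSec_pt {B : Set X} {s : X → Z₀} (hB : IsOpen B) (hs : IsSec S q₀ B s)
    {y : X} (hy : y ∈ B) : (Ext.mkSec hB hs hy).pt = y := rfl

theorem Ext.mkSec_mem_nb {B : Set X} {s : X → Z₀} (hB : IsOpen B) (hs : IsSec S q₀ B s)
    {y : X} (hy : y ∈ B) : Ext.mkSec hB hs hy ∈ Ext.nb S q₀ B s := ⟨hy, rfl⟩

theorem Ext.mkSec_mem_nb_iff {B B' : Set X} {s s' : X → Z₀} (hB : IsOpen B)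
    (hs : IsSec S q₀ B s) {y : X} (hy : y ∈ B) :
    Ext.mkSec hB hs hy ∈ Ext.nb S q₀ B' s' ↔ y ∈ B' ∧ s =ᶠ[𝓝[S] y] s' := by
  constructor
  · rintro ⟨h1, h2⟩
    exact ⟨h1, Germ.coe_eq.1 h2⟩
  · rintro ⟨h1, h2⟩
    exact ⟨h1, Germ.coe_eq.2 h2⟩

theorem Ext.eq_mkSec_of_mem_nb {B : Set X} {s : X → Z₀} (hB : IsOpen B) (hs : IsSec S q₀ B s)
    {p : Ext S q₀} (hp : p ∈ Ext.nb S q₀ B s) : p = Ext.mkSec hB hs hp.1 :=
  Ext.eq_of_germ s rfl hp.2 rfl

theorem Ext.mkSec_eq_mkSec_iff {B B' : Set X} {s s' : X → Z₀} (hB : IsOpen B)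
    (hs : IsSec S q₀ B s) (hB' : IsOpen B') (hs' : IsSec S q₀ B' s') {y y' : X} (hy : y ∈ B)
    (hy' : y' ∈ B') :
    Ext.mkSec hB hs hy = Ext.mkSec hB' hs' hy' ↔ y = y' ∧ s =ᶠ[𝓝[S] y] s' := by
  constructor
  · intro h
    have h1 : y = y' := congrArg Ext.pt h
    subst h1
    refine ⟨rfl, ?_⟩
    have h2 := Ext.mkSec_mem_nb hB' hs' hy'
    rw [← h, Ext.mkSec_mem_nb_iff] at h2
    exact h2.2
  · rintro ⟨rfl, h⟩
    exact Ext.eq_of_germ s rfl rfl (Germ.coe_eq.2 h.symm)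

theorem Ext.exists_mkSec (p : Ext S q₀) : ∃ (B : Set X) (s : X → Z₀) (hB : IsOpen B)
    (hs : IsSec S q₀ B s) (hy : p.pt ∈ B), p = Ext.mkSec hB hs hy := by
  obtain ⟨B, s, hB, hp, hs, hg⟩ := p.isSec
  exact ⟨B, s, hB, hs, hp, Ext.eq_of_germ s rfl hg rfl⟩

theorem Ext.isTopologicalBasis : TopologicalSpace.IsTopologicalBasis
    {N | ∃ (B : Set X) (s : X → Z₀), IsOpen B ∧ IsSec S q₀ B s ∧ N = Ext.nb S q₀ B s} where
  exists_subset_inter := by
    rintro _ ⟨B, s, hB, hs, rfl⟩ _ ⟨B', s', hB', hs', rfl⟩ p ⟨hp, hp'⟩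
    have h1 : s =ᶠ[𝓝[S] p.pt] s' := Germ.coe_eq.1 (hp.2.symm.trans hp'.2)
    obtain ⟨W, hW, hpW, hWs⟩ := mem_nhdsWithin.1 h1
    refine ⟨Ext.nb S q₀ (W ∩ (B ∩ B')) s, ⟨_, s, hW.inter (hB.inter hB'),
      hs.mono (inter_subset_right.trans inter_subset_left), rfl⟩, ⟨⟨hpW, hp.1, hp'.1⟩, hp.2⟩, ?_⟩
    rintro r ⟨⟨hrW, hrB, hrB'⟩, hr⟩
    refine ⟨⟨hrB, hr⟩, hrB', hr.trans (Germ.coe_eq.2 ?_)⟩
    exact mem_nhdsWithin.2 ⟨W, hW, hrW, hWs⟩
  sUnion_eq := by
    refine eq_univ_of_forall fun p => ?_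
    obtain ⟨B, s, hB, hp, hs, hg⟩ := p.isSec
    exact ⟨_, ⟨B, s, hB, hs, rfl⟩, hp, hg⟩
  eq_generateFrom := rfl

theorem Ext.isOpen_nb {B : Set X} {s : X → Z₀} (hB : IsOpen B) (hs : IsSec S q₀ B s) :
    IsOpen (Ext.nb S q₀ B s) :=
  Ext.isTopologicalBasis.isOpen ⟨B, s, hB, hs, rfl⟩

theorem Ext.mem_nhds_iff {p : Ext S q₀} {U : Set (Ext S q₀)} :
    U ∈ 𝓝 p ↔ ∃ (B : Set X) (s : X → Z₀), IsOpen B ∧ IsSec S q₀ B s ∧ p ∈ Ext.nb S q₀ B s ∧
      Ext.nb S q₀ B s ⊆ U := by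
  rw [Ext.isTopologicalBasis.mem_nhds_iff]
  constructor
  · rintro ⟨_, ⟨B, s, hB, hs, rfl⟩, hp, hU⟩
    exact ⟨B, s, hB, hs, hp, hU⟩
  · rintro ⟨B, s, hB, hs, hp, hU⟩
    exact ⟨_, ⟨B, s, hB, hs, rfl⟩, hp, hU⟩

theorem Ext.continuous_proj : Continuous (Ext.proj : Ext S q₀ → X) := by
  rw [continuous_def]
  intro W hW
  rw [isOpen_iff_mem_nhds]
  intro p hp
  obtain ⟨B, s, hB, hpB, hs, hg⟩ := p.isSec
  exact Ext.mem_nhds_iff.2 ⟨W ∩ B, s, hW.inter hB, hs.mono inter_subset_right,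
    ⟨⟨hp, hpB⟩, hg⟩, fun r hr => hr.1.1⟩

/-- The section of `Ext` defined by a section of `q₀` is continuous. -/
theorem Ext.continuous_mkSec {B : Set X} {s : X → Z₀} (hB : IsOpen B) (hs : IsSec S q₀ B s) :
    Continuous fun y : B => Ext.mkSec hB hs y.2 := by
  rw [continuous_iff_continuousAt]
  intro y U hU
  obtain ⟨B', s', hB', hs', hp, hU⟩ := Ext.mem_nhds_iff.1 hU
  rw [Ext.mkSec_mem_nb_iff] at hp
  obtain ⟨W, hW, hyW, hWs⟩ := mem_nhdsWithin.1 hp.2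
  rw [mem_map]
  refine mem_of_superset ((continuous_subtype_val.isOpen_preimage _ (hW.inter hB')).mem_nhds
    ⟨hyW, hp.1⟩) ?_
  rintro y' ⟨h1, h2⟩
  apply hU
  rw [Ext.mkSec_mem_nb_iff]
  exact ⟨h2, mem_nhdsWithin.2 ⟨W, hW, h1, hWs⟩⟩

end Basic

section Covering

variable {X : Type u} [TopologicalSpace X] {Z₀ : Type v} [TopologicalSpace Z₀]
variable {S : Set X} {q₀ : Z₀ → X}

/-- Two sections over a preconnected `B ∩ S` which agree at one point agree. -/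
theorem ExtData.eqOn (h : ExtData S q₀) {B : Set X} (hB : IsPreconnected (B ∩ S))
    {s s' : X → Z₀} (hs : IsSec S q₀ B s) (hs' : IsSec S q₀ B s') {y : X} (hy : y ∈ B ∩ S)
    (hyy : s y = s' y) : EqOn s s' (B ∩ S) :=
  h.sep.eqOn_of_comp_eqOn h.lh.isLocallyInjective hB hs.1 hs'.1
    (fun z hz => by simp only [Function.comp_apply]; rw [hs.2 z hz, hs'.2 z hz]) hy hyy

theorem ExtData.neBot (h : ExtData S q₀) (x : X) : (𝓝[S] x).NeBot :=
  mem_closure_iff_nhdsWithin_neBot.1 (h.dense x)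

/-- A good open set: preconnected trace on `S` and sections through all points. -/
structure Good (S : Set X) (q₀ : Z₀ → X) (B : Set X) : Prop where
  isOpen : IsOpen B
  conn : IsPreconnected (B ∩ S)
  sec : ∀ z, q₀ z ∈ B → ∃ s, IsSec S q₀ B s ∧ s (q₀ z) = z

theorem ExtData.exists_good (h : ExtData S q₀) {x : X} {U : Set X} (hU : U ∈ 𝓝 x) :
    ∃ B, Good S q₀ B ∧ x ∈ B ∧ B ⊆ U := by
  obtain ⟨B, hB, hxB, hsec⟩ := h.sec x
  obtain ⟨B', hB', hxB', hBU, hc⟩ := h.conn x (U ∩ B) (inter_mem hU (hB.mem_nhds hxB))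
  refine ⟨B', ⟨hB', hc, fun z hz => ?_⟩, hxB', hBU.trans inter_subset_left⟩
  obtain ⟨s, hs, hsz⟩ := hsec z (hBU hz).2
  exact ⟨s, hs.mono (hBU.trans inter_subset_right), hsz⟩

/-- Two sections which agree at one point of `S` have the same germ there. -/
theorem ExtData.eventuallyEq_of_eq (h : ExtData S q₀) {B B' : Set X} (hB : IsOpen B)
    (hB' : IsOpen B') {s s' : X → Z₀} (hs : IsSec S q₀ B s) (hs' : IsSec S q₀ B' s') {y : X}
    (hyB : y ∈ B) (hyB' : y ∈ B') (hyS : y ∈ S) (hyy : s y = s' y) : s =ᶠ[𝓝[S] y] s' := by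
  obtain ⟨C, hC, hyC, hCB⟩ := h.exists_good ((hB.inter hB').mem_nhds ⟨hyB, hyB'⟩)
  have h1 : EqOn s s' (C ∩ S) := h.eqOn hC.conn (hs.mono (hCB.trans inter_subset_left))
    (hs'.mono (hCB.trans inter_subset_right)) ⟨hyC, hyS⟩ hyy
  exact mem_nhdsWithin.2 ⟨C, hC.isOpen, hyC, h1⟩

/-- Two sections over a good set with the same germ at one point agree. -/
theorem Good.eqOn_of_germ (h : ExtData S q₀) {B : Set X} (hB : Good S q₀ B)
    {s s' : X → Z₀} (hs : IsSec S q₀ B s) (hs' : IsSec S q₀ B s') {y : X} (hy : y ∈ B)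
    (hyy : s =ᶠ[𝓝[S] y] s') : EqOn s s' (B ∩ S) := by
  have := h.neBot y
  have h1 : ∀ᶠ z in 𝓝[S] y, s z = s' z ∧ z ∈ B ∩ S := hyy.and
    (inter_mem (mem_nhdsWithin_of_mem_nhds (hB.isOpen.mem_nhds hy)) self_mem_nhdsWithin)
  obtain ⟨z, hz, hzB⟩ := h1.exists
  exact h.eqOn hB.conn hs hs' hzB hz

/-- Over a good open set every point of the extension is the germ of a section over the whole
set. -/
theorem Good.exists_section (h : ExtData S q₀) {B : Set X} (hB : Good S q₀ B) (p : Ext S q₀)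
    (hp : p.pt ∈ B) : ∃ s, IsSec S q₀ B s ∧ p ∈ Ext.nb S q₀ B s := by
  obtain ⟨B', s', hB', hpB', hs', hg⟩ := p.isSec
  obtain ⟨C, hC, hpC, hCB⟩ := h.exists_good ((hB.isOpen.inter hB').mem_nhds ⟨hp, hpB'⟩)
  have := h.neBot p.pt
  have h1 : ∀ᶠ z in 𝓝[S] p.pt, z ∈ C ∩ S :=
    inter_mem (mem_nhdsWithin_of_mem_nhds (hC.isOpen.mem_nhds hpC)) self_mem_nhdsWithin
  obtain ⟨y, hy⟩ := h1.exists
  have hyB' : y ∈ B' ∩ S := ⟨(hCB hy.1).2, hy.2⟩
  have hq : q₀ (s' y) = y := hs'.2 y hyB'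
  obtain ⟨s, hs, hsy⟩ := hB.sec (s' y) (by rw [hq]; exact (hCB hy.1).1)
  rw [hq] at hsy
  have h2 : EqOn s s' (C ∩ S) := h.eqOn hC.conn (hs.mono (hCB.trans inter_subset_left))
    (hs'.mono (hCB.trans inter_subset_right)) hy hsy
  refine ⟨s, hs, hp, hg.trans (Germ.coe_eq.2 ?_)⟩
  exact mem_nhdsWithin.2 ⟨C, hC.isOpen, hpC, h2.symm⟩

/-- A choice of the section over the good set `B` through `p`. -/
noncomputable def Good.section (h : ExtData S q₀) {B : Set X} (hB : Good S q₀ B) (p : Ext S q₀)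
    (hp : p.pt ∈ B) : X → Z₀ := (hB.exists_section h p hp).choose

theorem Good.section_isSec (h : ExtData S q₀) {B : Set X} (hB : Good S q₀ B) (p : Ext S q₀)
    (hp : p.pt ∈ B) : IsSec S q₀ B (hB.section h p hp) := (hB.exists_section h p hp).choose_spec.1

theorem Good.mem_nb_section (h : ExtData S q₀) {B : Set X} (hB : Good S q₀ B) (p : Ext S q₀)
    (hp : p.pt ∈ B) : p ∈ Ext.nb S q₀ B (hB.section h p hp) :=
  (hB.exists_section h p hp).choose_spec.2

/-- The fibre of the extension over a point, with the discrete topology. -/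
@[ext] structure FibD (S : Set X) (q₀ : Z₀ → X) (x : X) : Type (max u v) where
  /-- the point -/
  pnt : Ext S q₀
  pt_eq : pnt.pt = x

instance (x : X) : TopologicalSpace (FibD S q₀ x) := ⊥

instance (x : X) : DiscreteTopology (FibD S q₀ x) := ⟨rfl⟩

/-- Transport of a point over the good set `B` to the point `y` of `B`. -/
noncomputable def Good.move (h : ExtData S q₀) {B : Set X} (hB : Good S q₀ B) (p : Ext S q₀)
    (hp : p.pt ∈ B) {y : X} (hy : y ∈ B) : Ext S q₀ :=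
  Ext.mkSec hB.isOpen (hB.section_isSec h p hp) hy

theorem Good.move_mem_nb (h : ExtData S q₀) {B : Set X} (hB : Good S q₀ B) {s : X → Z₀}
    (hs : IsSec S q₀ B s) {p : Ext S q₀} (hp : p ∈ Ext.nb S q₀ B s) {y : X} (hy : y ∈ B) :
    hB.move h p hp.1 hy = Ext.mkSec hB.isOpen hs hy := by
  rw [Good.move, Ext.mkSec_eq_mkSec_iff]
  refine ⟨rfl, ?_⟩
  have h1 : EqOn (hB.section h p hp.1) s (B ∩ S) :=
    hB.eqOn_of_germ h (hB.section_isSec h p hp.1) hs hp.1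
      (Germ.coe_eq.1 ((hB.mem_nb_section h p hp.1).2.symm.trans hp.2))
  exact mem_nhdsWithin.2 ⟨B, hB.isOpen, hy, h1⟩

theorem Good.move_move (h : ExtData S q₀) {B : Set X} (hB : Good S q₀ B) (p : Ext S q₀)
    (hp : p.pt ∈ B) {y : X} (hy : y ∈ B) : hB.move h (hB.move h p hp hy) hy hp = p := by
  have h1 := hB.move_mem_nb h (hB.section_isSec h p hp)
    (Ext.mkSec_mem_nb hB.isOpen (hB.section_isSec h p hp) hy) hp
  exact h1.trans (Ext.eq_mkSec_of_mem_nb hB.isOpen _ (hB.mem_nb_section h p hp)).symm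

/-- The trivialization of the extension over a good open set. -/
noncomputable def Good.homeo (h : ExtData S q₀) {B : Set X} (hB : Good S q₀ B) {x : X}
    (hx : x ∈ B) : (Ext.proj : Ext S q₀ → X) ⁻¹' B ≃ₜ B × FibD S q₀ x where
  toFun p := (⟨p.1.pt, p.2⟩, ⟨hB.move h p.1 p.2 hx, rfl⟩)
  invFun t := ⟨hB.move h t.2.pnt (by rw [t.2.pt_eq]; exact hx) t.1.2, t.1.2⟩
  left_inv := by
    rintro ⟨p, hp⟩
    apply Subtype.ext
    exact hB.move_move h p hp hx
  right_inv := by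
    rintro ⟨⟨y, hy⟩, ⟨p, hp⟩⟩
    subst hp
    refine Prod.ext rfl (FibD.ext ?_)
    exact hB.move_move h p hx hy
  continuous_toFun := by
    refine Continuous.prodMk ?_ ?_
    · exact (Ext.continuous_proj.comp continuous_subtype_val).subtype_mk _
    · rw [continuous_iff_continuousAt]
      rintro ⟨p, hp⟩
      have hp' : p.pt ∈ B := hp
      refine ContinuousAt.congr (f := fun _ => (⟨hB.move h p hp' hx, rfl⟩ : FibD S q₀ x))
        continuousAt_const ?_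
      have h1 : (Subtype.val ⁻¹' Ext.nb S q₀ B (hB.section h p hp') :
          Set ((Ext.proj : Ext S q₀ → X) ⁻¹' B)) ∈ 𝓝 (⟨p, hp⟩ : (Ext.proj : Ext S q₀ → X) ⁻¹' B) :=
        ((Ext.isOpen_nb hB.isOpen (hB.section_isSec h p hp')).preimage
          continuous_subtype_val).mem_nhds (hB.mem_nb_section h p hp')
      filter_upwards [h1]
      rintro ⟨r, hr⟩ hrs
      apply FibD.ext
      exact (hB.move_mem_nb h (hB.section_isSec h p hp') hrs hx).symm
  continuous_invFun := by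
    refine continuous_prod_of_discrete_right.2 ?_
    rintro ⟨p, hp⟩
    exact (Ext.continuous_mkSec hB.isOpen (hB.section_isSec h p (by rw [hp]; exact hx))).subtype_mk _

theorem ExtData.isEvenlyCovered (h : ExtData S q₀) (x : X) :
    IsEvenlyCovered (Ext.proj : Ext S q₀ → X) x (FibD S q₀ x) := by
  obtain ⟨B, hB, hxB, -⟩ := h.exists_good (x := x) univ_mem
  exact ⟨inferInstance, B, hxB, hB.isOpen, hB.isOpen.preimage Ext.continuous_proj,
    hB.homeo h hxB, fun p => rfl⟩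

/-- **The extension is a covering of `X`.** -/
theorem ExtData.isCoveringMap (h : ExtData S q₀) :
    IsCoveringMap (Ext.proj : Ext S q₀ → X) := fun x =>
  (h.isEvenlyCovered x).to_isEvenlyCovered_preimage

theorem ExtData.t2Space [T2Space X] (h : ExtData S q₀) : T2Space (Ext S q₀) := by
  refine ⟨fun p r hpr => ?_⟩
  by_cases h1 : Ext.proj p = Ext.proj r
  · exact h.isCoveringMap.isSeparatedMap p r h1 hpr
  · obtain ⟨U, V, hU, hV, hpU, hrV, hd⟩ := t2_separation h1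
    exact ⟨_, _, hU.preimage Ext.continuous_proj, hV.preimage Ext.continuous_proj, hpU, hrV,
      hd.preimage _⟩

/-! ### The old covering inside the extension -/

/-- The embedding `Z₀ → Ext`. -/
noncomputable def ExtData.incl (h : ExtData S q₀) (z : Z₀) : Ext S q₀ :=
  have h1 := (h.sec (q₀ z)).choose_spec
  Ext.mkSec h1.1 (h1.2.2 z h1.2.1).choose_spec.1 h1.2.1

theorem ExtData.proj_incl (h : ExtData S q₀) (z : Z₀) : Ext.proj (h.incl z) = q₀ z := rfl

theorem ExtData.incl_mem_nb_iff (h : ExtData S q₀) {B : Set X} {s : X → Z₀} (hB : IsOpen B)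
    (hs : IsSec S q₀ B s) (z : Z₀) :
    h.incl z ∈ Ext.nb S q₀ B s ↔ q₀ z ∈ B ∧ s (q₀ z) = z := by
  have h1 := (h.sec (q₀ z)).choose_spec
  have h2 := (h1.2.2 z h1.2.1).choose_spec
  have h3 : h.incl z ∈ Ext.nb S q₀ B s ↔
    q₀ z ∈ B ∧ (h1.2.2 z h1.2.1).choose =ᶠ[𝓝[S] (q₀ z)] s :=
    Ext.mkSec_mem_nb_iff h1.1 h2.1 h1.2.1
  rw [h3]
  refine and_congr_right fun hzB => ⟨fun h4 => ?_, fun h4 => ?_⟩
  · rw [← h4.eq_of_nhdsWithin (h.mem z), h2.2]
  · exact h.eventuallyEq_of_eq h1.1 hB h2.1 hs h1.2.1 hzB (h.mem z) (h2.2.trans h4.symm)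

theorem ExtData.incl_injective (h : ExtData S q₀) : Function.Injective h.incl := by
  intro z z' hzz
  obtain ⟨B, hB, hzB, hsec⟩ := h.sec (q₀ z)
  obtain ⟨s, hs, hsz⟩ := hsec z hzB
  have h1 : h.incl z ∈ Ext.nb S q₀ B s := (h.incl_mem_nb_iff hB hs z).2 ⟨hzB, hsz⟩
  rw [hzz, h.incl_mem_nb_iff hB hs] at h1
  have h2 : q₀ z = q₀ z' := congrArg Ext.pt hzz
  rw [← hsz, h2, h1.2]

/-- The points of `Z₀` on a section form an open set. -/
theorem ExtData.isOpen_range_sec (h : ExtData S q₀) {B : Set X} {s : X → Z₀} (hB : IsOpen B)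
    (hs : IsSec S q₀ B s) : IsOpen {z | q₀ z ∈ B ∧ s (q₀ z) = z} := by
  rw [isOpen_iff_mem_nhds]
  rintro z ⟨hzB, hz⟩
  obtain ⟨N, hN, hzN, hinj⟩ := h.lh.isLocallyInjective z
  have hc : ContinuousAt s (q₀ z) :=
    (hs.1 _ ⟨hzB, h.mem z⟩).continuousAt ((hB.inter h.isOpen).mem_nhds ⟨hzB, h.mem z⟩)
  have hc' : ContinuousAt (fun z => s (q₀ z)) z :=
    ContinuousAt.comp hc h.lh.continuous.continuousAt
  have h1 : ∀ᶠ z' in 𝓝 z, s (q₀ z') ∈ N := by
    apply hc'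
    simp only
    rw [hz]
    exact hN.mem_nhds hzN
  have h2 : ∀ᶠ z' in 𝓝 z, z' ∈ N := hN.mem_nhds hzN
  have h3 : ∀ᶠ z' in 𝓝 z, q₀ z' ∈ B := h.lh.continuous.continuousAt (hB.mem_nhds hzB)
  filter_upwards [h1, h2, h3] with z' h1 h2 h3
  exact ⟨h3, hinj h1 h2 (hs.2 _ ⟨h3, h.mem z'⟩)⟩

theorem ExtData.continuous_incl (h : ExtData S q₀) : Continuous h.incl := by
  rw [Ext.isTopologicalBasis.continuous_iff]
  rintro _ ⟨B, s, hB, hs, rfl⟩
  convert h.isOpen_range_sec hB hs using 1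
  ext z
  exact h.incl_mem_nb_iff hB hs z

theorem ExtData.isOpenMap_incl (h : ExtData S q₀) : IsOpenMap h.incl := by
  intro W hW
  rw [isOpen_iff_mem_nhds]
  rintro _ ⟨z, hz, rfl⟩
  obtain ⟨B, hB, hzB, hsec⟩ := h.sec (q₀ z)
  obtain ⟨s, hs, hsz⟩ := hsec z hzB
  have h1 : IsOpen ((B ∩ S) ∩ s ⁻¹' W) := hs.1.isOpen_inter_preimage (hB.inter h.isOpen) hW
  refine Ext.mem_nhds_iff.2 ⟨(B ∩ S) ∩ s ⁻¹' W, s, h1,
    hs.mono (inter_subset_left.trans inter_subset_left), ?_, ?_⟩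
  · rw [h.incl_mem_nb_iff h1 (hs.mono (inter_subset_left.trans inter_subset_left))]
    refine ⟨⟨⟨hzB, h.mem z⟩, ?_⟩, hsz⟩
    rw [mem_preimage, hsz]
    exact hz
  · rintro p ⟨⟨hp1, hp2⟩, hp3⟩
    have h2 : q₀ (s p.pt) = p.pt := hs.2 _ hp1
    refine ⟨s p.pt, hp2, ?_⟩
    have h3 : h.incl (s p.pt) ∈ Ext.nb S q₀ B s :=
      (h.incl_mem_nb_iff hB hs _).2 ⟨by rw [h2]; exact hp1.1, by rw [h2]⟩
    exact Ext.eq_of_germ s h2 h3.2 hp3

/-- **The covering `Z₀` is an open subset of the extension** ... -/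
theorem ExtData.isOpenEmbedding_incl (h : ExtData S q₀) : IsOpenEmbedding h.incl :=
  .of_continuous_injective_isOpenMap h.continuous_incl h.incl_injective h.isOpenMap_incl

/-- ... namely the part over `S`. -/
theorem ExtData.range_incl (h : ExtData S q₀) : range h.incl = Ext.proj ⁻¹' S := by
  apply Subset.antisymm
  · rintro _ ⟨z, rfl⟩
    exact h.mem z
  · intro p hp
    obtain ⟨B, s, hB, hpB, hs, hg⟩ := p.isSec
    have h2 : q₀ (s p.pt) = p.pt := hs.2 _ ⟨hpB, hp⟩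
    refine ⟨s p.pt, ?_⟩
    have h3 : h.incl (s p.pt) ∈ Ext.nb S q₀ B s :=
      (h.incl_mem_nb_iff hB hs _).2 ⟨by rw [h2]; exact hpB, by rw [h2]⟩
    exact Ext.eq_of_germ s h2 h3.2 hg

theorem ExtData.dense_range_incl (h : ExtData S q₀) : DenseRange h.incl := by
  rw [DenseRange, h.range_incl]
  exact h.dense.preimage h.isCoveringMap.isOpenMap

theorem ExtData.preconnectedSpace [PreconnectedSpace Z₀] (h : ExtData S q₀) :
    PreconnectedSpace (Ext S q₀) :=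
  h.dense_range_incl.preconnectedSpace h.continuous_incl

theorem ExtData.connectedSpace [ConnectedSpace Z₀] (h : ExtData S q₀) :
    ConnectedSpace (Ext S q₀) :=
  { h.preconnectedSpace with toNonempty := (inferInstance : Nonempty Z₀).map h.incl }

/-! ### Fibres over a good open set -/

/-- The fibre of the extension over any point `x` of a good open set `B` is the fibre of `Z₀` over
any point `y` of `B ∩ S`. -/
noncomputable def Good.fibEquiv (h : ExtData S q₀) {B : Set X} (hB : Good S q₀ B) {x y : X}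
    (hx : x ∈ B) (hy : y ∈ B) (hyS : y ∈ S) :
    (q₀ ⁻¹' {y}) ≃ ((Ext.proj : Ext S q₀ → X) ⁻¹' {x}) where
  toFun z := ⟨hB.move h (h.incl z.1) (mem_of_eq_of_mem z.2 hy) hx, rfl⟩
  invFun p := ⟨hB.section h p.1 (mem_of_eq_of_mem p.2 hx) y,
    (hB.section_isSec h p.1 _).2 y ⟨hy, hyS⟩⟩
  left_inv := by
    rintro ⟨z, hz⟩
    have hz' : q₀ z = y := hz
    subst hz'
    apply Subtype.ext
    simp only
    have h1 := (h.incl_mem_nb_iff hB.isOpen (hB.section_isSec h (h.incl z) hy) z).1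
      (hB.mem_nb_section h (h.incl z) hy)
    have h2 := hB.section_isSec h (hB.move h (h.incl z) hy hx) hx
    have h3 := hB.mem_nb_section h (hB.move h (h.incl z) hy hx) hx
    have h4 : EqOn (hB.section h (h.incl z) hy)
        (hB.section h (hB.move h (h.incl z) hy hx) hx) (B ∩ S) :=
      hB.eqOn_of_germ h (hB.section_isSec h (h.incl z) hy) h2 hx (Germ.coe_eq.1 h3.2)
    exact (h4 ⟨hy, hyS⟩).symm.trans h1.2
  right_inv := by
    rintro ⟨p, hp⟩
    have hp' : p.pt = x := hp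
    subst hp'
    apply Subtype.ext
    simp only
    have h1 := hB.section_isSec h p hx
    have h2 : h.incl (hB.section h p hx y) ∈ Ext.nb S q₀ B (hB.section h p hx) :=
      (h.incl_mem_nb_iff hB.isOpen h1 _).2
        ⟨by rw [h1.2 y ⟨hy, hyS⟩]; exact hy, by rw [h1.2 y ⟨hy, hyS⟩]⟩
    exact (hB.move_mem_nb h h1 h2 hx).trans
      (Ext.eq_mkSec_of_mem_nb hB.isOpen h1 (hB.mem_nb_section h p hx)).symm

end Covering

section Functor

variable {X : Type u} [TopologicalSpace X] {Z₀ : Type v} [TopologicalSpace Z₀]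
  {Z₁ : Type w} [TopologicalSpace Z₁] {S : Set X} {q₀ : Z₀ → X} {q₁ : Z₁ → X}

theorem IsSec.map {B : Set X} {s : X → Z₀} (hs : IsSec S q₀ B s) {f : Z₀ → Z₁}
    (hf : Continuous f) (hq : ∀ z, q₁ (f z) = q₀ z) : IsSec S q₁ B (f ∘ s) :=
  ⟨hf.comp_continuousOn hs.1, fun y hy => by
    rw [Function.comp_apply, hq]; exact hs.2 y hy⟩

/-- A continuous map over `X` extends to the extensions. -/
def Ext.map {f : Z₀ → Z₁} (hf : Continuous f) (hq : ∀ z, q₁ (f z) = q₀ z) (p : Ext S q₀) :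
    Ext S q₁ :=
  ⟨p.pt, p.germ.map f, by
    obtain ⟨B, s, hB, hp, hs, hg⟩ := p.isSec
    exact ⟨B, f ∘ s, hB, hp, hs.map hf hq, by rw [hg]; rfl⟩⟩

@[simp] theorem Ext.proj_map {f : Z₀ → Z₁} (hf : Continuous f) (hq : ∀ z, q₁ (f z) = q₀ z)
    (p : Ext S q₀) : (Ext.map hf hq p).pt = p.pt := rfl

theorem Ext.map_mkSec {f : Z₀ → Z₁} (hf : Continuous f) (hq : ∀ z, q₁ (f z) = q₀ z)
    {B : Set X} {s : X → Z₀} (hB : IsOpen B) (hs : IsSec S q₀ B s) {y : X} (hy : y ∈ B) :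
    Ext.map hf hq (Ext.mkSec hB hs hy) = Ext.mkSec hB (hs.map hf hq) hy := rfl

theorem Ext.map_mem_nb {f : Z₀ → Z₁} (hf : Continuous f) (hq : ∀ z, q₁ (f z) = q₀ z)
    {B : Set X} {s : X → Z₀} {p : Ext S q₀} (hp : p ∈ Ext.nb S q₀ B s) :
    Ext.map hf hq p ∈ Ext.nb S q₁ B (f ∘ s) :=
  ⟨hp.1, (congrArg (Germ.map f) hp.2 :)⟩

theorem Ext.continuous_map {f : Z₀ → Z₁} (hf : Continuous f) (hq : ∀ z, q₁ (f z) = q₀ z) :
    Continuous (Ext.map hf hq : Ext S q₀ → Ext S q₁) := by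
  rw [continuous_iff_continuousAt]
  intro p U hU
  obtain ⟨B', s', hB', hs', hp, hU⟩ := Ext.mem_nhds_iff.1 hU
  obtain ⟨B, s, hB, hpB, hs, hg⟩ := p.isSec
  have h1 : Ext.map hf hq p ∈ Ext.nb S q₁ B (f ∘ s) := Ext.map_mem_nb hf hq ⟨hpB, hg⟩
  have h2 : f ∘ s =ᶠ[𝓝[S] p.pt] s' := Germ.coe_eq.1 (h1.2.symm.trans hp.2)
  obtain ⟨W, hW, hyW, hWs⟩ := mem_nhdsWithin.1 h2
  rw [mem_map]
  refine mem_of_superset ((Ext.isOpen_nb (hW.inter (hB.inter hB')) (hs.mono
    (inter_subset_right.trans inter_subset_left))).mem_nhds ⟨⟨hyW, hpB, hp.1⟩, hg⟩) ?_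
  rintro r ⟨⟨h3, h4, h5⟩, h6⟩
  apply hU
  have h7 : Ext.map hf hq r ∈ Ext.nb S q₁ B (f ∘ s) := Ext.map_mem_nb hf hq ⟨h4, h6⟩
  exact ⟨h5, h7.2.trans (Germ.coe_eq.2 (mem_nhdsWithin.2 ⟨W, hW, h3, hWs⟩))⟩

theorem ExtData.map_incl (h : ExtData S q₀) (h' : ExtData S q₁) {f : Z₀ → Z₁}
    (hf : Continuous f) (hq : ∀ z, q₁ (f z) = q₀ z) (z : Z₀) :
    Ext.map hf hq (h.incl z) = h'.incl (f z) := by
  obtain ⟨B, hB, hzB, hsec⟩ := h.sec (q₀ z)
  obtain ⟨s, hs, hsz⟩ := hsec z hzB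
  have h1 : h.incl z ∈ Ext.nb S q₀ B s := (h.incl_mem_nb_iff hB hs z).2 ⟨hzB, hsz⟩
  have h2 : h'.incl (f z) ∈ Ext.nb S q₁ B (f ∘ s) :=
    (h'.incl_mem_nb_iff hB (hs.map hf hq) (f z)).2
      ⟨by rw [hq]; exact hzB, by rw [hq, Function.comp_apply, hsz]⟩
  exact Ext.eq_of_germ (f ∘ s) (hq z).symm (Ext.map_mem_nb hf hq h1).2 h2.2

end Functor

section OfCovering

variable {X : Type u} [TopologicalSpace X] {Z₀ : Type v} [TopologicalSpace Z₀]
  {U : Type w} [TopologicalSpace U]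

/-- A section given on `U` instead of on `X`. -/
theorem IsSec.of_emb [Nonempty U] {j : U → X} (hj : IsOpenEmbedding j) {π : Z₀ → U}
    {B : Set X} {s : U → Z₀} (hs : ContinuousOn s (j ⁻¹' B))
    (hs' : ∀ u, j u ∈ B → π (s u) = u) :
    IsSec (range j) (j ∘ π) B (s ∘ (hj.toOpenPartialHomeomorph j).symm) ∧
      ∀ u, (s ∘ (hj.toOpenPartialHomeomorph j).symm) (j u) = s u := by
  have h0 : ∀ u, (hj.toOpenPartialHomeomorph j).symm (j u) = u := fun u =>
    hj.toOpenPartialHomeomorph_left_inv (f := j)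
  have h1 : ∀ y ∈ range j, j ((hj.toOpenPartialHomeomorph j).symm y) = y := by
    rintro _ ⟨u, rfl⟩
    rw [h0]
  refine ⟨⟨?_, ?_⟩, fun u => by rw [Function.comp_apply, h0]⟩
  · have h2 : ContinuousOn (hj.toOpenPartialHomeomorph j).symm (range j) := by
      have := (hj.toOpenPartialHomeomorph j).continuousOn_symm
      rwa [hj.toOpenPartialHomeomorph_target] at this
    refine hs.comp (h2.mono inter_subset_right) ?_
    rintro y ⟨hyB, hy⟩
    rw [mem_preimage, h1 y hy]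
    exact hyB
  · rintro y ⟨hyB, hy⟩
    simp only [Function.comp_apply]
    rw [hs', h1 y hy]
    rw [h1 y hy]
    exact hyB

/-- **The extension data for a covering `π : Z₀ → U` of a dense open subset `j : U → X`**: only
the boundary points have to be examined. -/
theorem ExtData.of_covering [LocallyConnectedSpace U] {j : U → X} (hj : IsOpenEmbedding j)
    (hd : DenseRange j) {π : Z₀ → U} (hπ : IsCoveringMap π)
    (hconn : ∀ x ∉ range j, ∀ V ∈ 𝓝 x, ∃ B, IsOpen B ∧ x ∈ B ∧ B ⊆ V ∧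
      IsPreconnected (B ∩ range j))
    (hsec : ∀ x ∉ range j, ∃ B, IsOpen B ∧ x ∈ B ∧ ∀ z, j (π z) ∈ B → ∃ s : U → Z₀,
      ContinuousOn s (j ⁻¹' B) ∧ (∀ u, j u ∈ B → π (s u) = u) ∧ s (π z) = z) :
    ExtData (range j) (j ∘ π) where
  isOpen := hj.isOpen_range
  dense := hd
  mem z := ⟨π z, rfl⟩
  lh := hj.isLocalHomeomorph.comp hπ.isLocalHomeomorph
  sep := by
    intro z z' h1 h2
    exact hπ.isSeparatedMap z z' (hj.injective h1) h2
  conn := by
    intro x V hV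
    by_cases hx : x ∈ range j
    · obtain ⟨u, rfl⟩ := hx
      obtain ⟨W, hW, hWc⟩ := locallyConnectedSpace_iff_subsets_isOpen_isConnected.1
        (inferInstance : LocallyConnectedSpace U) u (j ⁻¹' V)
        (hj.continuous.continuousAt hV)
      refine ⟨j '' W, hj.isOpenMap W hWc.1, mem_image_of_mem _ hWc.2.1, image_subset_iff.2 hW, ?_⟩
      rw [inter_eq_self_of_subset_left (image_subset_range _ _)]
      exact (hWc.2.2.image j hj.continuous.continuousOn).isPreconnected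
    · exact hconn x hx V hV
  sec := by
    intro x
    by_cases hx : x ∈ range j
    · obtain ⟨u, rfl⟩ := hx
      obtain ⟨-, V, huV, hV, -, H, hH⟩ := hπ u
      refine ⟨j '' V, hj.isOpenMap V hV, mem_image_of_mem _ huV, fun z hz => ?_⟩
      have hzV : π z ∈ V := by
        obtain ⟨v, hv, hvz⟩ := hz
        rwa [← hj.injective hvz]
      have : Nonempty U := ⟨π z⟩
      classical
      let s : U → Z₀ := fun v => if hv : v ∈ V then (H.symm (⟨v, hv⟩, (H ⟨z, hzV⟩).2)).1 else z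
      have hs1 : ∀ v (hv : v ∈ V), s v = (H.symm (⟨v, hv⟩, (H ⟨z, hzV⟩).2)).1 := fun v hv =>
        dif_pos hv
      have hs2 : ContinuousOn s (j ⁻¹' (j '' V)) := by
        rw [hj.injective.preimage_image, continuousOn_iff_continuous_domRestrict]
        have : V.domRestrict s = fun v : V => (H.symm (v, (H ⟨z, hzV⟩).2)).1 := by
          ext v
          exact hs1 v.1 v.2
        rw [this]
        exact continuous_subtype_val.comp (H.symm.continuous.comp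
          (continuous_id.prodMk continuous_const))
      have hs3 : ∀ v, j v ∈ j '' V → π (s v) = v := by
        rintro v hv
        have hv' : v ∈ V := (hj.injective.mem_set_image).1 hv
        rw [hs1 v hv']
        have := hH (H.symm (⟨v, hv'⟩, (H ⟨z, hzV⟩).2))
        rw [H.apply_symm_apply] at this
        exact this.symm
      have h4 := IsSec.of_emb hj (π := π) hs2 hs3
      refine ⟨_, h4.1, (h4.2 (π z)).trans ?_⟩
      rw [hs1 _ hzV]
      have h5 : ((⟨π z, hzV⟩ : V), (H ⟨z, hzV⟩).2) = H ⟨z, hzV⟩ := by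
        refine Prod.ext (Subtype.ext ?_) rfl
        exact (hH ⟨z, hzV⟩).symm
      rw [h5, H.symm_apply_apply]
    · obtain ⟨B, hB, hxB, h1⟩ := hsec x hx
      refine ⟨B, hB, hxB, fun z hz => ?_⟩
      obtain ⟨s, hs, hs', hsz⟩ := h1 z hz
      have : Nonempty U := ⟨π z⟩
      have h4 := IsSec.of_emb hj (π := π) hs hs'
      exact ⟨_, h4.1, (h4.2 (π z)).trans hsz⟩

end OfCovering

end Vale.Agent.P300.H196
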